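import Crest.Agent.R213.Defs
import Crest.Agent.R213.D.Oper
import Crest.Agent.R213.J0bGen
import Crest.Agent.R213.D.Formal
import Crest.Agent.R213.J0bK
import Crest.Agent.R213.J0
import Crest.Agent.R213.J310
import Crest.Agent.R213.FlowDef

-- ▼ part R213/D/DDefs
section

/-!
# Row 213, part D: definitions (background built from the self-similar profile)

Unit scale: `x ∈ [0,1]`, time variable `s = σ = τ/L²`.  `1/φ = 1/x + 1/(1-x) + w`,
`φ = x(1-x)/P = x ψ`, `P = 1 + x(1-x)w`, `ψ = (1-x)/P`.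
-/

set_option autoImplicit false

open Set MeasureTheory Filter Topology

noncomputable section

namespace Crest.Agent.R213.D

/-- `u` is `C^∞` on `I × K` (one-sided at closed ends; `I`, `K` intervals of any kind). -/
def SmIK (I K : Set ℝ) (u : ℝ → ℝ → ℝ) : Prop :=
  ContDiffOn ℝ (⊤ : ℕ∞) (fun p : ℝ × ℝ => u p.1 p.2) (I ×ˢ K)

/-- `∂ₓ` within `K` (`dxK (Icc 0 L) = dx L` definitionally). -/
def dxK (K : Set ℝ) (u : ℝ → ℝ → ℝ) : ℝ → ℝ → ℝ := fun s x => derivWithin (fun y => u s y) K x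

/-- `∂_s` within `[0,∞)` (one-sided at `s = 0`; equals `dt` for `s > 0`). -/
def ds (u : ℝ → ℝ → ℝ) : ℝ → ℝ → ℝ := fun s x => derivWithin (fun r => u r x) (Ici 0) s

/-- `P = 1 + x(1-x) w` -/
def PP (w : ℝ → ℝ → ℝ) : ℝ → ℝ → ℝ := fun s x => 1 + x * (1 - x) * w s x




/-- the class `O(M)`: `F = s^M G` with `G` smooth on `I × K` (including `s = 0`). -/
def OM (I K : Set ℝ) (M : ℕ) (F : ℝ → ℝ → ℝ) : Prop :=
  ∃ G : ℝ → ℝ → ℝ, SmIK I K G ∧ ∀ s ∈ I, ∀ x ∈ K, F s x = s ^ M * G s x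

/-- smooth form of `(1 - g y)/y` (for `g 0 = 1`). -/
def hq (g : ℝ → ℝ) (y : ℝ) : ℝ := -∫ r in (0 : ℝ)..1, deriv g (r * y)

/-- `(1/g - 1)/y` -/
def qin (g : ℝ → ℝ) (y : ℝ) : ℝ := hq g y / g y

/-- `Sig = 90 (1-g)/y - 20 g' - y g''` -/
def Sig (g : ℝ → ℝ) (y : ℝ) : ℝ := 90 * hq g y - 20 * deriv g y - y * deriv (deriv g) y

/-- inner solution, form valid for `s > 0`, `0 ≤ x < 1` -/
def win (g : ℝ → ℝ) : ℝ → ℝ → ℝ := fun s x => qin g (x / √s) / √s - 1 / (1 - x)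

/-- inner solution, form valid for `s ≥ 0`, `0 < x < 1` (equal to `win` for `s > 0`) -/
def winh (gh : ℝ → ℝ) : ℝ → ℝ → ℝ := fun s x => (1 / gh (s / x ^ 2) - 1) / x - 1 / (1 - x)

/-- open domain of the inner solution -/
def Ug (g : ℝ → ℝ) : Set (ℝ × ℝ) := {p | 0 < p.1 ∧ p.2 < 1 ∧ 0 < g (p.2 / √p.1)}

end Crest.Agent.R213.D
end
end

-- ▼ part R213/D/Inner
section

/-!
# Row 213, D1: the self-similar inner solution (helper800)
-/

set_option autoImplicit false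

open Set MeasureTheory Filter Topology

noncomputable section

namespace Crest.Agent.R213.D

variable {c A : ℝ} {g gh : ℝ → ℝ}

theorem deriv_smooth {f : ℝ → ℝ} (hf : ContDiff ℝ (⊤ : ℕ∞) f) : ContDiff ℝ (⊤ : ℕ∞) (deriv f) :=
  (contDiff_infty_iff_deriv.1 hf).2

theorem smooth_diff {f : ℝ → ℝ} (hf : ContDiff ℝ (⊤ : ℕ∞) f) (y : ℝ) :
    HasDerivAt f (deriv f y) y :=
  ((contDiff_infty_iff_deriv.1 hf).1 y).hasDerivAt

theorem hq_smooth (hg : Soliton c A g gh) : ContDiff ℝ (⊤ : ℕ∞) (hq g) := by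
  have hd : ContDiff ℝ (⊤ : ℕ∞) (deriv g) := deriv_smooth hg.smooth
  have H : ContDiffOn ℝ (⊤ : ℕ∞) (fun p : ℝ × ℝ => deriv g (p.1 * p.2)) (Icc 0 1 ×ˢ univ) :=
    (hd.comp (contDiff_fst.mul contDiff_snd)).contDiffOn
  have := contDiffOn_pint (a := 0) (b := 1) one_pos (convex_univ (𝕜 := ℝ) (E := ℝ))
    uniqueDiffOn_univ H
  exact (contDiffOn_univ.1 this).neg

theorem hq_mul (hg : Soliton c A g gh) (y : ℝ) : 1 - g y = y * hq g y := by
  unfold hq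
  have h1 : y * ∫ r in (0 : ℝ)..1, deriv g (r * y) = ∫ r in (0 * y)..(1 * y), deriv g r := by
    have := intervalIntegral.smul_integral_comp_mul_right (f := deriv g) (a := 0) (b := 1) y
    simpa using this
  have h2 : ∫ r in (0 * y)..(1 * y), deriv g r = g (1 * y) - g (0 * y) := by
    apply intervalIntegral.integral_deriv_eq_sub
    · intro x _
      exact (contDiff_infty_iff_deriv.1 hg.smooth).1 x
    · exact (deriv_smooth hg.smooth).continuous.intervalIntegrable _ _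
  rw [mul_neg, h1, h2, one_mul, zero_mul, hg.g_zero]
  ring

theorem hq_zero (hg : Soliton c A g gh) : hq g 0 = A := by
  unfold hq
  simp [hg.deriv_zero]

theorem Sig_zero (hg : Soliton c A g gh) : Sig g 0 = 110 * A := by
  unfold Sig
  rw [hq_zero hg, hg.deriv_zero]
  ring

theorem gh_pos (hg : Soliton c A g gh) {z : ℝ} (hz : 0 ≤ z) : 0 < gh z := by
  rcases hz.eq_or_lt with rfl | hz
  · rw [hg.gh_zero]; exact hg.c_pos
  · have h := hg.link (1 / √z) (by positivity)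
    have e : 1 / (1 / √z) ^ 2 = z := by
      rw [div_pow, one_pow, one_div_one_div, Real.sq_sqrt hz.le]
    rw [e] at h
    rw [← h]
    exact hg.pos _ (by positivity)

theorem Sig_smooth (hg : Soliton c A g gh) : ContDiff ℝ (⊤ : ℕ∞) (Sig g) := by
  unfold Sig
  have h1 := deriv_smooth hg.smooth
  have h2 := deriv_smooth h1
  exact ((contDiff_const.mul (hq_smooth hg)).sub (contDiff_const.mul h1)).sub (contDiff_id.mul h2)

theorem hq_deriv (hg : Soliton c A g gh) (y : ℝ) :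
    hq g y + y * deriv (hq g) y = - deriv g y := by
  have h1 : HasDerivAt (fun y => 1 - g y) (- deriv g y) y := by
    simpa using (smooth_diff hg.smooth y).const_sub 1
  have h2 : HasDerivAt (fun y => y * hq g y) (1 * hq g y + y * deriv (hq g) y) y :=
    (hasDerivAt_id y).mul (smooth_diff (hq_smooth hg) y)
  have e : (fun y => 1 - g y) = fun y => y * hq g y := funext (hq_mul hg)
  rw [e] at h1
  have := h2.unique h1
  linarith

theorem Sig_hasDeriv (hg : Soliton c A g gh) (y : ℝ) :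
    HasDerivAt (Sig g) (90 * deriv (hq g) y - 21 * deriv (deriv g) y
      - y * deriv (deriv (deriv g)) y) y := by
  unfold Sig
  have h1 := deriv_smooth hg.smooth
  have h2 := deriv_smooth h1
  have := (((smooth_diff (hq_smooth hg) y).const_mul 90).sub ((smooth_diff h1 y).const_mul 20)).sub
    ((hasDerivAt_id y).mul (smooth_diff h2 y))
  refine this.congr_deriv ?_
  simp only [id]
  ring

theorem deriv_Sig_pos (hg : Soliton c A g gh) {y : ℝ} (hy : 0 < y) :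
    deriv (Sig g) y = 1 / 2 * (1 / c - 1 / g y) := by
  rw [(Sig_hasDeriv hg y).deriv]
  have ode := hg.ode y hy
  have e2 : iteratedDeriv 2 g y = deriv (deriv g) y := by
    rw [iteratedDeriv_succ, iteratedDeriv_one]
  have e3 : iteratedDeriv 3 g y = deriv (deriv (deriv g)) y := by
    rw [iteratedDeriv_succ]
    congr 1
    rw [iteratedDeriv_succ, iteratedDeriv_one]
  rw [e2, e3] at ode
  have h1 := hq_deriv hg y
  have h2 := hq_mul hg y
  have hy2 : y ^ 2 ≠ 0 := by positivity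
  apply mul_left_cancel₀ hy2
  -- y² h' = - y g' - (1 - g)
  have h3 : y ^ 2 * deriv (hq g) y = - (y * deriv g y) - (1 - g y) := by
    rw [h2]
    have : y * deriv (hq g) y = - deriv g y - hq g y := by linarith
    calc y ^ 2 * deriv (hq g) y = y * (y * deriv (hq g) y) := by ring
      _ = _ := by rw [this]; ring
  have : y ^ 2 * (90 * deriv (hq g) y - 21 * deriv (deriv g) y - y * deriv (deriv (deriv g)) y)
    = 90 * (y ^ 2 * deriv (hq g) y) - 21 * y ^ 2 * deriv (deriv g) y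
      - y ^ 3 * deriv (deriv (deriv g)) y := by ring
  rw [this, h3]
  linarith

/-- if two functions continuous from the right at `0` agree for `y > 0`, they agree at `0`. -/
theorem eq_zero_of_right {f1 f2 : ℝ → ℝ} (h1 : ContinuousWithinAt f1 (Ioi 0) 0)
    (h2 : ContinuousWithinAt f2 (Ioi 0) 0) (h : ∀ y, 0 < y → f1 y = f2 y) : f1 0 = f2 0 := by
  have e : f1 =ᶠ[𝓝[>] 0] f2 := by
    filter_upwards [self_mem_nhdsWithin] with y hy using h y hy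
  exact tendsto_nhds_unique (h1.tendsto.congr' e) h2.tendsto


theorem deriv2_Sig (hg : Soliton c A g gh) {y : ℝ} (hy : 0 ≤ y) :
    deriv (deriv (Sig g)) y = 1 / 2 * (deriv g y / g y ^ 2) := by
  have key : ∀ y : ℝ, 0 < y → deriv (deriv (Sig g)) y = 1 / 2 * (deriv g y / g y ^ 2) := by
    intro y hy
    have hgy : g y ≠ 0 := (hg.pos y hy.le).ne'
    have e : deriv (Sig g) =ᶠ[𝓝 y] fun y => 1 / 2 * (1 / c - 1 / g y) := by
      filter_upwards [lt_mem_nhds hy] with z hz using deriv_Sig_pos hg hz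
    rw [e.deriv_eq]
    have h1 : HasDerivAt (fun y => 1 / g y) (- deriv g y / g y ^ 2) y := by
      have := (smooth_diff hg.smooth y).inv hgy
      have e : (fun y => 1 / g y) = g⁻¹ := by funext z; simp
      rw [e]; exact this
    have h2 := (h1.const_sub (1 / c)).const_mul (1 / 2)
    rw [h2.deriv]
    ring
  rcases hy.eq_or_lt with rfl | hy
  · refine eq_zero_of_right (f1 := deriv (deriv (Sig g)))
      (f2 := fun y => 1 / 2 * (deriv g y / g y ^ 2)) ?_ ?_ key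
    · exact (deriv_smooth (deriv_smooth (Sig_smooth hg))).continuous.continuousWithinAt
    · have hg0 : g 0 ≠ 0 := by rw [hg.g_zero]; exact one_ne_zero
      exact (continuousAt_const.mul ((deriv_smooth hg.smooth).continuous.continuousAt.div
        (hg.smooth.continuous.continuousAt.pow 2) (pow_ne_zero 2 hg0))).continuousWithinAt
  · exact key y hy

/-- `q + y q' = -g'/g²` for `q = (1/g-1)/y`. -/
theorem qin_hasDeriv (hg : Soliton c A g gh) {y : ℝ} (hy : 0 ≤ y) :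
    HasDerivAt (qin g) (deriv (qin g) y) y ∧
      qin g y + y * deriv (qin g) y = - deriv g y / g y ^ 2 := by
  have hgy : g y ≠ 0 := (hg.pos y hy).ne'
  have h0 : HasDerivAt (qin g) ((deriv (hq g) y * g y - hq g y * deriv g y) / g y ^ 2) y :=
    (smooth_diff (hq_smooth hg) y).div (smooth_diff hg.smooth y) hgy
  refine ⟨h0.differentiableAt.hasDerivAt, ?_⟩
  rw [h0.deriv]
  unfold qin
  have h1 := hq_deriv hg y
  have h2 := hq_mul hg y
  field_simp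
  have e : y * deriv (hq g) y = - deriv g y - hq g y := by linarith
  have e2 : hq g y * g y + y * (g y * deriv (hq g) y - hq g y * deriv g y)
      = g y * hq g y + (y * deriv (hq g) y) * g y - (y * hq g y) * deriv g y := by ring
  rw [e2, e, ← h2]; ring


theorem win_eq_winh (hg : Soliton c A g gh) {s x : ℝ} (hs : 0 < s) (hx : 0 < x) :
    win g s x = winh gh s x := by
  unfold win winh qin
  have hss : 0 < √s := Real.sqrt_pos.2 hs
  have hy : 0 < x / √s := by positivity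
  have h1 := hg.link _ hy
  have e : 1 / (x / √s) ^ 2 = s / x ^ 2 := by
    rw [div_pow, Real.sq_sqrt hs.le, one_div_div]
  rw [e] at h1
  rw [← h1]
  have h2 := hq_mul hg (x / √s)
  have hgy : g (x / √s) ≠ 0 := (hg.pos _ hy.le).ne'
  have h3 : hq g (x / √s) = (1 - g (x / √s)) / (x / √s) := by
    rw [h2]; field_simp
  rw [h3]
  congr 1
  field_simp

theorem winh_zero (hg : Soliton c A g gh) (x : ℝ) :
    winh gh 0 x = (1 / c - 1) / x - 1 / (1 - x) := by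
  unfold winh
  rw [zero_div, hg.gh_zero]

theorem smIK_winh (hg : Soliton c A g gh) {a b : ℝ} (ha : 0 < a) (hb : b < 1) :
    SmIK (Ici 0) (Icc a b) (winh gh) := by
  unfold SmIK winh
  have hx0 : ∀ p ∈ (Ici (0:ℝ) ×ˢ Icc a b), p.2 ≠ 0 := fun p hp => (ha.trans_le hp.2.1).ne'
  have h1 : ContDiffOn ℝ (⊤ : ℕ∞) (fun p : ℝ × ℝ => p.1 / p.2 ^ 2) (Ici 0 ×ˢ Icc a b) :=
    contDiff_fst.contDiffOn.div (contDiff_snd.contDiffOn.pow 2)
      (fun p hp => pow_ne_zero 2 (hx0 p hp))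
  have hmap : MapsTo (fun p : ℝ × ℝ => p.1 / p.2 ^ 2) (Ici 0 ×ˢ Icc a b) (Ici 0) :=
    fun p hp => mem_Ici.2 (div_nonneg (mem_Ici.1 hp.1) (sq_nonneg _))
  have h2 : ContDiffOn ℝ (⊤ : ℕ∞) (fun p : ℝ × ℝ => gh (p.1 / p.2 ^ 2)) (Ici 0 ×ˢ Icc a b) :=
    hg.smooth_inf.comp h1 hmap
  refine (((contDiffOn_const.div h2 (fun p hp => (gh_pos hg (hmap hp)).ne')).sub
    contDiffOn_const).div contDiff_snd.contDiffOn hx0).sub
    (contDiffOn_const.div (contDiffOn_const.sub contDiff_snd.contDiffOn) (fun p hp => ?_))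
  have := hp.2.2
  linarith

theorem isOpen_Ug (hg : Soliton c A g gh) : IsOpen (Ug g) := by
  have h1 : IsOpen {p : ℝ × ℝ | 0 < p.1} := isOpen_lt continuous_const continuous_fst
  have h2 : IsOpen {p : ℝ × ℝ | p.2 < 1} := isOpen_lt continuous_snd continuous_const
  have hc : ContinuousOn (fun p : ℝ × ℝ => g (p.2 / √p.1)) {p : ℝ × ℝ | 0 < p.1} := by
    refine hg.smooth.continuous.comp_continuousOn ?_
    refine continuous_snd.continuousOn.div (Real.continuous_sqrt.comp continuous_fst).continuousOn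
      (fun p hp => (Real.sqrt_pos.2 hp).ne')
  have h3 := hc.isOpen_inter_preimage h1 (isOpen_Ioi (a := (0 : ℝ)))
  have e : Ug g = ({p : ℝ × ℝ | 0 < p.1} ∩ (fun p : ℝ × ℝ => g (p.2 / √p.1)) ⁻¹' Ioi 0)
      ∩ {p : ℝ × ℝ | p.2 < 1} := by
    ext p
    simp only [Ug, mem_setOf_eq, mem_inter_iff, mem_preimage, mem_Ioi]
    tauto
  rw [e]
  exact h3.inter h2

theorem mem_Ug (hg : Soliton c A g gh) {s x : ℝ} (hs : 0 < s) (hx : 0 ≤ x) (hx1 : x < 1) :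
    (s, x) ∈ Ug g :=
  ⟨hs, hx1, hg.pos _ (div_nonneg hx (Real.sqrt_nonneg _))⟩

theorem contDiffOn_ratio (U : Set (ℝ × ℝ)) (hU : ∀ p ∈ U, 0 < p.1) :
    ContDiffOn ℝ (⊤ : ℕ∞) (fun p : ℝ × ℝ => p.2 / √p.1) U :=
  contDiff_snd.contDiffOn.div (contDiff_fst.contDiffOn.sqrt (fun p hp => (hU p hp).ne'))
    (fun p hp => (Real.sqrt_pos.2 (hU p hp)).ne')

theorem smU_ratio_comp {f : ℝ → ℝ} (hf : ContDiff ℝ (⊤ : ℕ∞) f) (U : Set (ℝ × ℝ))
    (hU : ∀ p ∈ U, 0 < p.1) : SmU U (fun s x => f (x / √s)) :=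
  hf.comp_contDiffOn (contDiffOn_ratio U hU)

theorem smU_sqrt (U : Set (ℝ × ℝ)) (hU : ∀ p ∈ U, 0 < p.1) : SmU U (fun s _ => √s) :=
  contDiff_fst.contDiffOn.sqrt (fun p hp => (hU p hp).ne')

theorem smU_win (hg : Soliton c A g gh) : SmU (Ug g) (win g) := by
  have hU : ∀ p ∈ Ug g, 0 < p.1 := fun p hp => hp.1
  have h1 := smU_ratio_comp (hq_smooth hg) (Ug g) hU
  have h2 := smU_ratio_comp hg.smooth (Ug g) hU
  have h3 := smU_sqrt (Ug g) hU
  have h4 : ContDiffOn ℝ (⊤ : ℕ∞) (fun p : ℝ × ℝ => hq g (p.2 / √p.1) / g (p.2 / √p.1)) (Ug g) :=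
    ContDiffOn.div h1 h2 (fun p hp => hp.2.2.ne')
  have h5 : ContDiffOn ℝ (⊤ : ℕ∞)
      (fun p : ℝ × ℝ => hq g (p.2 / √p.1) / g (p.2 / √p.1) / √p.1) (Ug g) :=
    ContDiffOn.div h4 h3 (fun p hp => (Real.sqrt_pos.2 hp.1).ne')
  have h6 : ContDiffOn ℝ (⊤ : ℕ∞) (fun p : ℝ × ℝ => 1 / (1 - p.2)) (Ug g) :=
    contDiffOn_const.div (contDiffOn_const.sub contDiff_snd.contDiffOn) (fun p hp => by
      have := hp.2.1
      linarith)
  exact ContDiffOn.sub h5 h6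

theorem Pw_win (hg : Soliton c A g gh) {s x : ℝ} (hp : (s, x) ∈ Ug g) :
    Pw (win g) s x = (1 - x) / g (x / √s) := by
  unfold Pw win qin
  have hs : 0 < s := hp.1
  have hx1 : x < 1 := hp.2.1
  have hss : 0 < √s := Real.sqrt_pos.2 hs
  have hgy : g (x / √s) ≠ 0 := hp.2.2.ne'
  have h2 := hq_mul hg (x / √s)
  have hx2 : 1 - x ≠ 0 := by linarith
  have e : x * (1 - x) * (hq g (x / √s) / g (x / √s) / √s - 1 / (1 - x))
      = (1 - x) * ((x / √s) * hq g (x / √s)) / g (x / √s) - x := by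
    field_simp
  rw [e, ← h2]
  field_simp
  ring

theorem Pw_win_pos (hg : Soliton c A g gh) {p : ℝ × ℝ} (hp : p ∈ Ug g) :
    0 < Pw (win g) p.1 p.2 := by
  rw [Pw_win hg (s := p.1) (x := p.2) hp]
  exact div_pos (by have := hp.2.1; linarith) hp.2.2

theorem psw_win (hg : Soliton c A g gh) {s x : ℝ} (hp : (s, x) ∈ Ug g) :
    psw (win g) s x = g (x / √s) := by
  unfold psw
  rw [Pw_win hg hp]
  have hx2 : 1 - x ≠ 0 := by have := hp.2.1; simp only at this; linarith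
  have hgy : g (x / √s) ≠ 0 := hp.2.2.ne'
  field_simp

theorem qw_win (hg : Soliton c A g gh) {s x : ℝ} (hp : (s, x) ∈ Ug g) :
    qw (win g) s x = hq g (x / √s) / √s := by
  unfold qw
  rw [Pw_win hg hp]
  have hx2 : 1 - x ≠ 0 := by have := hp.2.1; simp only at this; linarith
  have hgy : g (x / √s) ≠ 0 := hp.2.2.ne'
  have hss : √s ≠ 0 := (Real.sqrt_pos.2 hp.1).ne'
  unfold win qin
  field_simp
  ring

/-- x-derivative of a self-similar function. -/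
theorem hasDerivAt_ratio {f : ℝ → ℝ} (hf : ContDiff ℝ (⊤ : ℕ∞) f) (s x : ℝ) :
    HasDerivAt (fun y => f (y / √s)) (deriv f (x / √s) / √s) x := by
  have h1 : HasDerivAt (fun y : ℝ => y / √s) (1 / √s) x := (hasDerivAt_id x).div_const _
  have h2 := (smooth_diff hf (x / √s)).comp x h1
  refine h2.congr_deriv ?_
  ring

theorem dX_psw_win (hg : Soliton c A g gh) {s x : ℝ} (hp : (s, x) ∈ Ug g) :
    dX (psw (win g)) s x = deriv g (x / √s) / √s := by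
  have h : ∀ p ∈ Ug g, psw (win g) p.1 p.2 = (fun s x => g (x / √s)) p.1 p.2 :=
    fun p hp => psw_win hg hp
  rw [dX_congr (G := fun s x => g (x / √s)) (isOpen_Ug hg) h hp]
  exact (hasDerivAt_ratio hg.smooth s x).deriv

theorem dX_dX_psw_win (hg : Soliton c A g gh) {s x : ℝ} (hp : (s, x) ∈ Ug g) :
    dX (dX (psw (win g))) s x = deriv (deriv g) (x / √s) / s := by
  have h : ∀ p ∈ Ug g, dX (psw (win g)) p.1 p.2
      = (fun s x => deriv g (x / √s) / √s) p.1 p.2 := fun p hp => dX_psw_win hg hp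
  rw [dX_congr (G := fun s x => deriv g (x / √s) / √s) (isOpen_Ug hg) h hp]
  have h2 := ((hasDerivAt_ratio (deriv_smooth hg.smooth) s x).div_const (√s)).deriv
  refine h2.trans ?_
  rw [div_div, Real.mul_self_sqrt hp.1.le]

theorem Sop_win (hg : Soliton c A g gh) {s x : ℝ} (hp : (s, x) ∈ Ug g) :
    Sop (win g) s x = Sig g (x / √s) / √s := by
  unfold Sop
  rw [qw_win hg hp, dX_psw_win hg hp, dX_dX_psw_win hg hp]
  unfold Sig
  have hs : 0 < s := hp.1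
  have hss : √s ≠ 0 := (Real.sqrt_pos.2 hs).ne'
  have e : x * (deriv (deriv g) (x / √s) / s) = x / √s * deriv (deriv g) (x / √s) / √s := by
    have : s = √s * √s := (Real.mul_self_sqrt hs.le).symm
    nth_rewrite 2 [this]
    field_simp
  rw [e]
  ring

theorem Sop_win_zero (hg : Soliton c A g gh) {s : ℝ} (hs : 0 < s) :
    Sop (win g) s 0 = 110 * A / √s := by
  rw [Sop_win hg (mem_Ug hg hs le_rfl one_pos), zero_div, Sig_zero hg]

theorem dX_dX_Sop_win (hg : Soliton c A g gh) {s x : ℝ} (hp : (s, x) ∈ Ug g) :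
    dX (dX (Sop (win g))) s x = deriv (deriv (Sig g)) (x / √s) / (√s * s) := by
  have hS := Sig_smooth hg
  have h : ∀ p ∈ Ug g, Sop (win g) p.1 p.2
      = (fun s x => Sig g (x / √s) / √s) p.1 p.2 := fun p hp => Sop_win hg hp
  have h1 : ∀ p ∈ Ug g, dX (Sop (win g)) p.1 p.2
      = (fun s x => deriv (Sig g) (x / √s) / √s / √s) p.1 p.2 := by
    intro p hp
    rw [dX_congr (G := fun s x => Sig g (x / √s) / √s) (isOpen_Ug hg) h (t := p.1) (x := p.2) hp]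
    exact ((hasDerivAt_ratio hS p.1 p.2).div_const (√p.1)).deriv
  rw [dX_congr (G := fun s x => deriv (Sig g) (x / √s) / √s / √s) (isOpen_Ug hg) h1 hp]
  have h2 := (((hasDerivAt_ratio (deriv_smooth hS) s x).div_const (√s)).div_const (√s)).deriv
  refine h2.trans ?_
  rw [div_div, div_div, Real.mul_self_sqrt hp.1.le]

theorem dt_win (hg : Soliton c A g gh) {s x : ℝ} (hs : 0 < s) (hx : 0 ≤ x) :
    dt (win g) s x = 1 / 2 * (deriv g (x / √s) / g (x / √s) ^ 2) / (√s * s) := by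
  have hss : 0 < √s := Real.sqrt_pos.2 hs
  have hy : 0 ≤ x / √s := div_nonneg hx hss.le
  obtain ⟨h1, h2⟩ := qin_hasDeriv hg hy
  have h3 : HasDerivAt (fun r : ℝ => √r) (1 / (2 * √s)) s := Real.hasDerivAt_sqrt hs.ne'
  have h4 : HasDerivAt (fun r : ℝ => x / √r) (- (x * (1 / (2 * √s))) / √s ^ 2) s := by
    have := (hasDerivAt_const s x).div h3 hss.ne'
    refine this.congr_deriv ?_
    ring
  have h5 : HasDerivAt (fun r : ℝ => qin g (x / √r))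
      (deriv (qin g) (x / √s) * (- (x * (1 / (2 * √s))) / √s ^ 2)) s :=
    HasDerivAt.comp (x := s) (h := fun r : ℝ => x / √r) (h₂ := qin g) h1 h4
  have h6 := (h5.div h3 hss.ne').sub_const (1 / (1 - x))
  unfold dt win
  have h7 : deriv (fun r => qin g (x / √r) / √r - 1 / (1 - x)) s = _ := h6.deriv
  rw [h7]
  have e : deriv g (x / √s) / g (x / √s) ^ 2
      = - (qin g (x / √s) + x / √s * deriv (qin g) (x / √s)) := by
    rw [h2]; ring
  rw [e, Real.sq_sqrt hs.le]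
  have hs2 : s = √s * √s := (Real.mul_self_sqrt hs.le).symm
  have hss' : √s ≠ 0 := hss.ne'
  have hmul : √s * √s = s := Real.mul_self_sqrt hs.le
  field_simp
  linear_combination (-(x * deriv (qin g) (x / √s))) * hmul

theorem resid_win (hg : Soliton c A g gh) {s x : ℝ} (hs : 0 < s) (hx : 0 ≤ x) (hx1 : x < 1) :
    resid (win g) s x = 0 := by
  unfold resid
  have hss : 0 < √s := Real.sqrt_pos.2 hs
  have hy : 0 ≤ x / √s := div_nonneg hx hss.le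
  rw [dt_win hg hs hx, dX_dX_Sop_win hg (mem_Ug hg hs hx hx1), deriv2_Sig hg hy]
  ring

end Crest.Agent.R213.D
end
end

-- ▼ part R213/D/OuterBd
section

/-!
# Row 213, part D3c: bounds in the outer region, constants independent of `M` (helper587)
-/

set_option autoImplicit false

open Set MeasureTheory Filter Topology

noncomputable section

namespace Crest.Agent.R213.D

namespace OB

variable {s1 a b : ℝ} {u v : ℝ → ℝ → ℝ}

lemma uniq (_hs1 : 0 < s1) (hab : a < b) : UniqueDiffOn ℝ (Ico 0 s1 ×ˢ Icc a b) :=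
  (uniqueDiffOn_Ico 0 s1).prod (uniqueDiffOn_Icc hab)

lemma hasDs (hu : SmIK (Ico 0 s1) (Icc a b) u) {s x : ℝ} (hs : s ∈ Ico 0 s1) (hx : x ∈ Icc a b) :
    HasDerivWithinAt (fun r => u r x) (fderivWithin ℝ (fun p : ℝ × ℝ => u p.1 p.2)
      (Ico 0 s1 ×ˢ Icc a b) (s, x) (1, 0)) (Ici 0) s := by
  have h0 : DifferentiableWithinAt ℝ (fun p : ℝ × ℝ => u p.1 p.2) (Ico 0 s1 ×ˢ Icc a b) (s, x) :=
    (hu (s, x) ⟨hs, hx⟩).differentiableWithinAt (by simp)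
  have h1 := h0.hasFDerivWithinAt
  have h2 : HasDerivWithinAt (fun r : ℝ => (r, x)) ((1 : ℝ), (0 : ℝ)) (Ico 0 s1) s :=
    ((hasDerivAt_id s).prodMk (hasDerivAt_const s x)).hasDerivWithinAt
  have hm : MapsTo (fun r : ℝ => (r, x)) (Ico 0 s1) (Ico 0 s1 ×ˢ Icc a b) := fun r hr => ⟨hr, hx⟩
  have h3 : HasDerivWithinAt ((fun p : ℝ × ℝ => u p.1 p.2) ∘ fun r : ℝ => (r, x))
      (fderivWithin ℝ (fun p : ℝ × ℝ => u p.1 p.2) (Ico 0 s1 ×ˢ Icc a b) (s, x) (1, 0))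
      (Ico 0 s1) s := h1.comp_hasDerivWithinAt s h2 hm
  refine HasDerivWithinAt.mono_of_mem_nhdsWithin (t := Ico 0 s1) h3 ?_
  rw [← Ici_inter_Iio]
  exact inter_mem_nhdsWithin _ (Iio_mem_nhds hs.2)

lemma ds_eq (hu : SmIK (Ico 0 s1) (Icc a b) u) {s x : ℝ} (hs : s ∈ Ico 0 s1) (hx : x ∈ Icc a b) :
    ds u s x = fderivWithin ℝ (fun p : ℝ × ℝ => u p.1 p.2)
      (Ico 0 s1 ×ˢ Icc a b) (s, x) (1, 0) :=
  (hasDs hu hs hx).derivWithin (uniqueDiffOn_Ici 0 s hs.1)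

lemma hasDs' (hu : SmIK (Ico 0 s1) (Icc a b) u) {s x : ℝ} (hs : s ∈ Ico 0 s1) (hx : x ∈ Icc a b) :
    HasDerivWithinAt (fun r => u r x) (ds u s x) (Ici 0) s := by
  rw [ds_eq hu hs hx]; exact hasDs hu hs hx

lemma smIK_ds (hs1 : 0 < s1) (hab : a < b) (hu : SmIK (Ico 0 s1) (Icc a b) u) :
    SmIK (Ico 0 s1) (Icc a b) (ds u) := by
  have h1 : ContDiffOn ℝ (⊤ : ℕ∞) (fderivWithin ℝ (fun p : ℝ × ℝ => u p.1 p.2)
      (Ico 0 s1 ×ˢ Icc a b)) (Ico 0 s1 ×ˢ Icc a b) :=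
    ContDiffOn.fderivWithin hu (uniq hs1 hab) (by simp)
  refine ContDiffOn.congr (h1.clm_apply (contDiffOn_const (c := ((1 : ℝ), (0 : ℝ))))) ?_
  intro p hp
  exact ds_eq hu hp.1 hp.2

lemma smIK_ds_iter (hs1 : 0 < s1) (hab : a < b) (hu : SmIK (Ico 0 s1) (Icc a b) u) (j : ℕ) :
    SmIK (Ico 0 s1) (Icc a b) (ds^[j] u) := by
  induction j with
  | zero => simpa using hu
  | succ j ih => rw [Function.iterate_succ_apply']; exact smIK_ds hs1 hab ih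

lemma hasDx (_hab : a < b) (hu : SmIK (Ico 0 s1) (Icc a b) u) {s x : ℝ} (hs : s ∈ Ico 0 s1)
    (hx : x ∈ Icc a b) :
    HasDerivWithinAt (fun y => u s y) (dxK (Icc a b) u s x) (Icc a b) x := by
  have h0 : DifferentiableWithinAt ℝ (fun p : ℝ × ℝ => u p.1 p.2) (Ico 0 s1 ×ˢ Icc a b) (s, x) :=
    (hu (s, x) ⟨hs, hx⟩).differentiableWithinAt (by simp)
  have h1 := h0.hasFDerivWithinAt
  have h2 : HasDerivWithinAt (fun r : ℝ => (s, r)) ((0 : ℝ), (1 : ℝ)) (Icc a b) x :=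
    ((hasDerivAt_const x s).prodMk (hasDerivAt_id x)).hasDerivWithinAt
  have hm : MapsTo (fun r : ℝ => (s, r)) (Icc a b) (Ico 0 s1 ×ˢ Icc a b) := fun r hr => ⟨hs, hr⟩
  have h3 : HasDerivWithinAt (fun r => u s r) _ (Icc a b) x := h1.comp_hasDerivWithinAt x h2 hm
  exact (h3.differentiableWithinAt).hasDerivWithinAt

lemma dxK_eq (hab : a < b) (hu : SmIK (Ico 0 s1) (Icc a b) u) {s x : ℝ} (hs : s ∈ Ico 0 s1)
    (hx : x ∈ Icc a b) :
    dxK (Icc a b) u s x = fderivWithin ℝ (fun p : ℝ × ℝ => u p.1 p.2)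
      (Ico 0 s1 ×ˢ Icc a b) (s, x) (0, 1) := by
  have h0 : DifferentiableWithinAt ℝ (fun p : ℝ × ℝ => u p.1 p.2) (Ico 0 s1 ×ˢ Icc a b) (s, x) :=
    (hu (s, x) ⟨hs, hx⟩).differentiableWithinAt (by simp)
  have h1 := h0.hasFDerivWithinAt
  have h2 : HasDerivWithinAt (fun r : ℝ => (s, r)) ((0 : ℝ), (1 : ℝ)) (Icc a b) x :=
    ((hasDerivAt_const x s).prodMk (hasDerivAt_id x)).hasDerivWithinAt
  have hm : MapsTo (fun r : ℝ => (s, r)) (Icc a b) (Ico 0 s1 ×ˢ Icc a b) := fun r hr => ⟨hs, hr⟩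
  have h3 : HasDerivWithinAt (fun r => u s r) _ (Icc a b) x := h1.comp_hasDerivWithinAt x h2 hm
  exact h3.derivWithin (uniqueDiffOn_Icc hab x hx)

lemma smIK_dx (hs1 : 0 < s1) (hab : a < b) (hu : SmIK (Ico 0 s1) (Icc a b) u) :
    SmIK (Ico 0 s1) (Icc a b) (dxK (Icc a b) u) := by
  have h1 : ContDiffOn ℝ (⊤ : ℕ∞) (fderivWithin ℝ (fun p : ℝ × ℝ => u p.1 p.2)
      (Ico 0 s1 ×ˢ Icc a b)) (Ico 0 s1 ×ˢ Icc a b) :=
    ContDiffOn.fderivWithin hu (uniq hs1 hab) (by simp)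
  refine ContDiffOn.congr (h1.clm_apply (contDiffOn_const (c := ((0 : ℝ), (1 : ℝ))))) ?_
  intro p hp
  exact dxK_eq hab hu hp.1 hp.2

/-- `ds` for `s > 0` is the usual derivative. -/
lemma ds_deriv {s x : ℝ} (hs : 0 < s) : ds u s x = deriv (fun r => u r x) s :=
  derivWithin_of_mem_nhds (Ici_mem_nhds hs)

lemma iter_eq (_hs1 : 0 < s1) (_hab : a < b) (_hu : SmIK (Ico 0 s1) (Icc a b) u) {x : ℝ}
    (_hx : x ∈ Icc a b) (j : ℕ) :
    ∀ s ∈ Ioo 0 s1, iteratedDeriv j (fun r => u r x) s = (ds^[j] u) s x := by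
  induction j with
  | zero => intro s _; simp
  | succ j ih =>
    intro s hs
    rw [iteratedDeriv_succ, Function.iterate_succ_apply', ds_deriv hs.1]
    apply Filter.EventuallyEq.deriv_eq
    filter_upwards [Ioo_mem_nhds hs.1 hs.2] with r hr using ih r hr

lemma bound (hu : SmIK (Ico 0 s1) (Icc a b) u) {s2 : ℝ} (h2 : s2 < s1) :
    ∃ C : ℝ, 0 ≤ C ∧ ∀ s ∈ Icc 0 s2, ∀ x ∈ Icc a b, |u s x| ≤ C := by
  have hK : IsCompact (Icc 0 s2 ×ˢ Icc a b) := isCompact_Icc.prod isCompact_Icc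
  have hc : ContinuousOn (fun p : ℝ × ℝ => u p.1 p.2) (Icc 0 s2 ×ˢ Icc a b) :=
    (ContDiffOn.continuousOn hu).mono
      (prod_mono (fun s hs => ⟨hs.1, lt_of_le_of_lt hs.2 h2⟩) subset_rfl)
  obtain ⟨C, hC⟩ := hK.exists_bound_of_continuousOn hc
  refine ⟨max C 0, le_max_right _ _, fun s hs x hx => ?_⟩
  have := hC (s, x) ⟨hs, hx⟩
  rw [Real.norm_eq_abs] at this
  exact this.trans (le_max_left _ _)

lemma iter_bound (hs1 : 0 < s1) (hab : a < b) (hu : SmIK (Ico 0 s1) (Icc a b) u) {s2 : ℝ}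
    (h2 : s2 < s1) (J : ℕ) :
    ∃ C : ℝ, 0 ≤ C ∧ ∀ j ≤ J, ∀ s ∈ Ioc 0 s2, ∀ x ∈ Icc a b,
      |iteratedDeriv j (fun r => u r x) s| ≤ C := by
  choose C hC0 hC using fun j => bound (smIK_ds_iter hs1 hab hu j) h2
  refine ⟨∑ j ∈ Finset.range (J + 1), C j, Finset.sum_nonneg fun j _ => hC0 j, ?_⟩
  intro j hj s hs x hx
  rw [iter_eq hs1 hab hu hx j s ⟨hs.1, lt_of_le_of_lt hs.2 h2⟩]
  refine (hC j s ⟨hs.1.le, hs.2⟩ x hx).trans ?_
  exact Finset.single_le_sum (fun i _ => hC0 i) (Finset.mem_range.2 (by omega))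

/-- `OM` is lowered by one by `ds`. -/
lemma om_ds (hs1 : 0 < s1) (hab : a < b) {n : ℕ} (h : OM (Ico 0 s1) (Icc a b) (n + 1) u) :
    OM (Ico 0 s1) (Icc a b) n (ds u) := by
  obtain ⟨G, hG, hGu⟩ := h
  refine ⟨fun s x => ((n : ℝ) + 1) * G s x + s * ds G s x, ?_, ?_⟩
  · exact ContDiffOn.add (ContDiffOn.mul contDiffOn_const hG)
      (ContDiffOn.mul contDiff_fst.contDiffOn (smIK_ds hs1 hab hG))
  · intro s hs x hx
    have hd : HasDerivWithinAt (fun r => r ^ (n + 1) * G r x)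
        (((n : ℝ) + 1) * s ^ n * G s x + s ^ (n + 1) * ds G s x) (Ici 0) s := by
      have h1 : HasDerivWithinAt (fun r : ℝ => r ^ (n + 1)) (((n : ℝ) + 1) * s ^ n) (Ici 0) s := by
        simpa using (hasDerivAt_pow (n + 1) s).hasDerivWithinAt
      exact h1.mul (hasDs' hG hs hx)
    have hev : (fun r => u r x) =ᶠ[𝓝[Ici 0] s] fun r => r ^ (n + 1) * G r x := by
      have : Ico 0 s1 ∈ 𝓝[Ici 0] s := by
        rw [← Ici_inter_Iio]
        exact inter_mem_nhdsWithin _ (Iio_mem_nhds hs.2)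
      filter_upwards [this] with r hr using hGu r hr x hx
    have : ds u s x = ((n : ℝ) + 1) * s ^ n * G s x + s ^ (n + 1) * ds G s x := by
      unfold ds
      rw [hev.derivWithin_eq (hGu s hs x hx)]
      exact hd.derivWithin (uniqueDiffOn_Ici 0 s hs.1)
    rw [this]; ring

lemma om_ds_iter (hs1 : 0 < s1) (hab : a < b) (j : ℕ) :
    ∀ {n : ℕ} {u : ℝ → ℝ → ℝ}, OM (Ico 0 s1) (Icc a b) (n + j) u →
      OM (Ico 0 s1) (Icc a b) n (ds^[j] u) := by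
  induction j with
  | zero => intro n u h; simpa using h
  | succ j ih =>
    intro n u h
    rw [Function.iterate_succ_apply]
    exact ih (om_ds hs1 hab (by simpa [add_assoc] using h))

lemma om_mono (h : OM (Ico 0 s1) (Icc a b) 1 u) : ∀ {s2 : ℝ}, s2 < s1 →
    ∃ C : ℝ, 0 ≤ C ∧ ∀ s ∈ Icc 0 s2, ∀ x ∈ Icc a b, |u s x| ≤ C * s := by
  intro s2 h2
  obtain ⟨G, hG, hGu⟩ := h
  obtain ⟨C, hC0, hC⟩ := bound hG h2
  refine ⟨C, hC0, fun s hs x hx => ?_⟩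
  rw [hGu s ⟨hs.1, lt_of_le_of_lt hs.2 h2⟩ x hx, pow_one, abs_mul, abs_of_nonneg hs.1, mul_comm]
  exact mul_le_mul_of_nonneg_right (hC s hs x hx) hs.1

/-- a term in `O(10)` has small derivatives of order `≤ 9` near `s = 0`. -/
lemma om_small (hs1 : 0 < s1) (hab : a < b) {n : ℕ} (h : OM (Ico 0 s1) (Icc a b) (n + 1) u) :
    ∃ s3 : ℝ, 0 < s3 ∧ s3 < s1 ∧ ∀ j ≤ n, ∀ s ∈ Ioo 0 s3, ∀ x ∈ Icc a b,
      |(ds^[j] u) s x| ≤ 1 := by
  have hj : ∀ j : ℕ, ∃ t : ℝ, 0 < t ∧ (j ≤ n → ∀ s ∈ Icc 0 (min t (s1 / 2)), ∀ x ∈ Icc a b,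
      |(ds^[j] u) s x| ≤ 1) := by
    intro j
    by_cases hjn : j ≤ n
    · have h1 : OM (Ico 0 s1) (Icc a b) 1 (ds^[j] u) := by
        have h2 : OM (Ico 0 s1) (Icc a b) ((n - j + 1) + j) u := by
          rw [show (n - j + 1) + j = n + 1 by omega]; exact h
        obtain ⟨G, hG, hGu⟩ := om_ds_iter hs1 hab j h2
        refine ⟨fun s x => s ^ (n - j) * G s x, ?_, fun s hs x hx => ?_⟩
        · exact ContDiffOn.mul (contDiff_fst.pow _).contDiffOn hG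
        · rw [hGu s hs x hx]; ring
      obtain ⟨C, hC0, hC⟩ := om_mono h1 (s2 := s1 / 2) (by linarith)
      refine ⟨1 / (C + 1), by positivity, fun _ s hs x hx => ?_⟩
      refine (hC s ⟨hs.1, hs.2.trans (min_le_right _ _)⟩ x hx).trans ?_
      have h3 : s ≤ 1 / (C + 1) := hs.2.trans (min_le_left _ _)
      calc C * s ≤ (C + 1) * (1 / (C + 1)) := by
            apply mul_le_mul (by linarith) h3 hs.1 (by linarith)
        _ = 1 := by field_simp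
    · exact ⟨1, one_pos, fun h => absurd h hjn⟩
  choose t ht0 ht using hj
  have hne : (Finset.range (n + 1)).Nonempty := ⟨0, by simp⟩
  set T := (Finset.range (n + 1)).inf' hne t with hT
  have hTpos : 0 < T := by
    rw [hT, Finset.lt_inf'_iff]
    exact fun j _ => ht0 j
  refine ⟨min T (s1 / 2), lt_min hTpos (by linarith), (min_le_right _ _).trans_lt (by linarith), ?_⟩
  intro j hj s hs x hx
  apply ht j hj s ⟨hs.1.le, ?_⟩ x hx
  have : T ≤ t j := Finset.inf'_le _ (Finset.mem_range.2 (by omega))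
  exact hs.2.le.trans (min_le_min_right _ this)

end OB

open OB in
theorem outer_bd {s1 : ℝ} (hs1 : 0 < s1) {w : ℝ → ℝ → ℝ} (hw : SmIK (Ico 0 s1) (Icc (1 / 8) 1) w)
    (hP : ∀ s ∈ Ico 0 s1, ∀ x ∈ Icc (1 / 8 : ℝ) 1, 0 < PP w s x) :
    ∃ c1 C1 : ℝ, 0 < c1 ∧ ∀ (s2 : ℝ) (w' : ℝ → ℝ → ℝ), 0 < s2 →
      SmIK (Ico 0 s2) (Icc (1 / 8) 1) w' →
      OM (Ico 0 s2) (Icc (1 / 8) 1) 10 (fun s x => w' s x - w s x) →
      ∃ s3 : ℝ, 0 < s3 ∧ s3 ≤ s2 ∧ (∀ s ∈ Ico 0 s3, ∀ x ∈ Icc (1 / 8 : ℝ) 1,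
        0 < PP w' s x ∧ c1 ≤ 1 / PP w' s x ∧ 1 / PP w' s x ≤ C1 ∧
        |dxK (Icc (1 / 8) 1) (fun s x => x * (1 - x) / PP w' s x) s x| ≤ C1) ∧
        ∀ s ∈ Ioo 0 s3, ∀ x ∈ Icc (1 / 8 : ℝ) 1, ∀ j ≤ 9,
          |iteratedDeriv j (fun r => 1 / PP w' r x) s| ≤ C1 := by
  have hab : (1 / 8 : ℝ) < 1 := by norm_num
  -- smoothness of `P` and `1/P`
  have smP : ∀ {t : ℝ} {v : ℝ → ℝ → ℝ}, SmIK (Ico 0 t) (Icc (1 / 8) 1) v →
      SmIK (Ico 0 t) (Icc (1 / 8) 1) (PP v) := by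
    intro t v hv
    exact contDiffOn_const.add ((contDiff_snd.contDiffOn.mul
      (contDiffOn_const.sub contDiff_snd.contDiffOn)).mul hv)
  have smI : ∀ {t : ℝ} {v : ℝ → ℝ → ℝ}, SmIK (Ico 0 t) (Icc (1 / 8) 1) v →
      (∀ s ∈ Ico 0 t, ∀ x ∈ Icc (1 / 8 : ℝ) 1, 0 < PP v s x) →
      SmIK (Ico 0 t) (Icc (1 / 8) 1) (fun s x => 1 / PP v s x) := by
    intro t v hv h0
    exact contDiffOn_const.div (smP hv) (fun p hp => (h0 p.1 hp.1 p.2 hp.2).ne')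
  have smphi : ∀ {t : ℝ} {v : ℝ → ℝ → ℝ}, SmIK (Ico 0 t) (Icc (1 / 8) 1) v →
      (∀ s ∈ Ico 0 t, ∀ x ∈ Icc (1 / 8 : ℝ) 1, 0 < PP v s x) →
      SmIK (Ico 0 t) (Icc (1 / 8) 1) (fun s x => x * (1 - x) / PP v s x) := by
    intro t v hv h0
    exact (contDiff_snd.contDiffOn.mul (contDiffOn_const.sub contDiff_snd.contDiffOn)).div
      (smP hv) (fun p hp => (h0 p.1 hp.1 p.2 hp.2).ne')
  -- bounds for `w`
  obtain ⟨CP, hCP0, hCP⟩ := bound (smP hw) (s2 := s1 / 2) (by linarith)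
  obtain ⟨CI, hCI0, hCI⟩ := bound (smI hw hP) (s2 := s1 / 2) (by linarith)
  obtain ⟨CJ, hCJ0, hCJ⟩ := iter_bound hs1 hab (smI hw hP) (s2 := s1 / 2) (by linarith) 9
  obtain ⟨CD, hCD0, hCD⟩ := bound (smIK_dx hs1 hab (smphi hw hP)) (s2 := s1 / 2) (by linarith)
  set c1 : ℝ := 1 / (CP + 1) with hc1
  set C1 : ℝ := CI + CJ + CD + 2 * CI + 2 with hC1
  refine ⟨c1, C1, by positivity, ?_⟩
  intro s2 w' hs2 hw' hOM
  -- `t0 = min s1 s2`, everything on `Ico 0 t0`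
  set t0 := min (s1 / 2) s2 with ht0
  have ht0p : 0 < t0 := lt_min (by linarith) hs2
  obtain ⟨G, hG, hGu⟩ := hOM
  have hsub1 : Ico 0 t0 ⊆ Ico 0 s1 := Ico_subset_Ico_right ((min_le_left _ _).trans (by linarith))
  have hsub2 : Ico 0 t0 ⊆ Ico 0 s2 := Ico_subset_Ico_right (min_le_right _ _)
  have hwt : SmIK (Ico 0 t0) (Icc (1 / 8) 1) w := ContDiffOn.mono hw (prod_mono hsub1 subset_rfl)
  have hwt' : SmIK (Ico 0 t0) (Icc (1 / 8) 1) w' := ContDiffOn.mono hw' (prod_mono hsub2 subset_rfl)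
  have hGt : SmIK (Ico 0 t0) (Icc (1 / 8) 1) G := ContDiffOn.mono hG (prod_mono hsub2 subset_rfl)
  have hPt : ∀ s ∈ Ico 0 t0, ∀ x ∈ Icc (1 / 8 : ℝ) 1, 0 < PP w s x := fun s hs => hP s (hsub1 hs)
  -- `P' - P = s^10 x(1-x) G`
  have hdiff : ∀ s ∈ Ico 0 t0, ∀ x ∈ Icc (1 / 8 : ℝ) 1,
      PP w' s x = PP w s x + s ^ 10 * (x * (1 - x) * G s x) := by
    intro s hs x hx
    have := hGu s (hsub2 hs) x hx
    simp only [PP]
    have h2 : w' s x = w s x + s ^ 10 * G s x := by linarith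
    rw [h2]; ring
  -- lower bound for `P` on `[0,s1/2]`
  have hPlow : ∀ s ∈ Ico 0 t0, ∀ x ∈ Icc (1 / 8 : ℝ) 1, 1 / (CI + 1) ≤ PP w s x := by
    intro s hs x hx
    have h1 := hCI s ⟨hs.1, hs.2.le.trans (min_le_left _ _)⟩ x hx
    have h2 := hPt s hs x hx
    rw [abs_of_pos (by positivity)] at h1
    rw [div_le_iff₀ (by linarith)]
    rw [div_le_iff₀ h2] at h1
    nlinarith
  -- choose `t1` such that `|s^10 x(1-x) G| ≤ 1/(2(CI+1))`
  obtain ⟨CG, hCG0, hCG⟩ := bound hGt (s2 := t0 / 2) (by linarith)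
  set e : ℝ := 1 / (2 * (CI + 1)) with he
  have hepos : 0 < e := by positivity
  set t1 := min (min (t0 / 2) 1) (e / (CG + 1)) with ht1
  have ht1p : 0 < t1 := lt_min (lt_min (by linarith) one_pos) (by positivity)
  have ht1a : t1 ≤ t0 / 2 := (min_le_left _ _).trans (min_le_left _ _)
  have ht1b : t1 ≤ 1 := (min_le_left _ _).trans (min_le_right _ _)
  have ht1c : t1 ≤ e / (CG + 1) := min_le_right _ _
  have hsm : ∀ s ∈ Ico 0 t1, ∀ x ∈ Icc (1 / 8 : ℝ) 1, |s ^ 10 * (x * (1 - x) * G s x)| ≤ e := by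
    intro s hs x hx
    have h1 := hCG s ⟨hs.1, hs.2.le.trans ht1a⟩ x hx
    have hx0 : 0 ≤ x := by linarith [hx.1]
    have hx1 : 0 ≤ 1 - x := by linarith [hx.2]
    have h3 : x * (1 - x) ≤ 1 := by nlinarith
    have h4 : s ^ 10 ≤ s := by
      have := pow_le_pow_of_le_one hs.1 (hs.2.le.trans ht1b) (show 1 ≤ 10 by norm_num)
      simpa using this
    rw [abs_mul, abs_mul, abs_of_nonneg (pow_nonneg hs.1 10), abs_of_nonneg (mul_nonneg hx0 hx1)]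
    calc s ^ 10 * (x * (1 - x) * |G s x|) ≤ s * (1 * |G s x|) := by
          apply mul_le_mul h4 _ (by positivity) hs.1
          exact mul_le_mul_of_nonneg_right h3 (abs_nonneg _)
      _ ≤ (e / (CG + 1)) * (CG + 1) := by
          apply mul_le_mul (hs.2.le.trans ht1c) (by linarith) (by positivity) (by positivity)
      _ = e := by field_simp
  have hP' : ∀ s ∈ Ico 0 t1, ∀ x ∈ Icc (1 / 8 : ℝ) 1, e ≤ PP w' s x := by
    intro s hs x hx
    have hs0 : s ∈ Ico 0 t0 := ⟨hs.1, hs.2.trans_le (ht1a.trans (by linarith))⟩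
    rw [hdiff s hs0 x hx]
    have h1 := hPlow s hs0 x hx
    have h2 := (abs_le.1 (hsm s hs x hx)).1
    have h3 : 1 / (CI + 1) = 2 * e := by rw [he]; field_simp
    linarith
  -- everything on `Ico 0 t1`
  have hsub3 : Ico 0 t1 ⊆ Ico 0 t0 := Ico_subset_Ico_right (ht1a.trans (by linarith))
  have hwu : SmIK (Ico 0 t1) (Icc (1 / 8) 1) w := ContDiffOn.mono hwt (prod_mono hsub3 subset_rfl)
  have hwu' : SmIK (Ico 0 t1) (Icc (1 / 8) 1) w' :=
    ContDiffOn.mono hwt' (prod_mono hsub3 subset_rfl)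
  have hGu' : SmIK (Ico 0 t1) (Icc (1 / 8) 1) G := ContDiffOn.mono hGt (prod_mono hsub3 subset_rfl)
  have hPu : ∀ s ∈ Ico 0 t1, ∀ x ∈ Icc (1 / 8 : ℝ) 1, 0 < PP w s x := fun s hs => hPt s (hsub3 hs)
  have hPu' : ∀ s ∈ Ico 0 t1, ∀ x ∈ Icc (1 / 8 : ℝ) 1, 0 < PP w' s x :=
    fun s hs x hx => hepos.trans_le (hP' s hs x hx)
  -- the difference of the inverses
  have hinv : OM (Ico 0 t1) (Icc (1 / 8) 1) 10
      (fun s x => 1 / PP w' s x - 1 / PP w s x) := by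
    refine ⟨fun s x => -(x * (1 - x) * G s x) * (1 / PP w' s x) * (1 / PP w s x), ?_, ?_⟩
    · exact ((((contDiff_snd.contDiffOn.mul (contDiffOn_const.sub contDiff_snd.contDiffOn)).mul
        hGu').neg).mul (smI hwu' hPu')).mul (smI hwu hPu)
    · intro s hs x hx
      have h1 := hdiff s (hsub3 hs) x hx
      have h2 := (hPu s hs x hx).ne'
      have h3 := (hPu' s hs x hx).ne'
      field_simp
      rw [h1]; ring
  have hphi : OM (Ico 0 t1) (Icc (1 / 8) 1) 10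
      (fun s x => x * (1 - x) / PP w' s x - x * (1 - x) / PP w s x) := by
    obtain ⟨G1, hG1, hG1u⟩ := hinv
    refine ⟨fun s x => x * (1 - x) * G1 s x, ?_, ?_⟩
    · exact (contDiff_snd.contDiffOn.mul (contDiffOn_const.sub contDiff_snd.contDiffOn)).mul hG1
    · intro s hs x hx
      have : 1 / PP w' s x - 1 / PP w s x = s ^ 10 * G1 s x := hG1u s hs x hx
      calc x * (1 - x) / PP w' s x - x * (1 - x) / PP w s x
          = x * (1 - x) * (1 / PP w' s x - 1 / PP w s x) := by ring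
        _ = _ := by rw [this]; ring
  -- derivative in `x` of the difference
  have hphix : ∃ C : ℝ, 0 ≤ C ∧ ∀ s ∈ Icc 0 (t1 / 2), ∀ x ∈ Icc (1 / 8 : ℝ) 1,
      |dxK (Icc (1 / 8) 1) (fun s x => x * (1 - x) / PP w' s x) s x -
        dxK (Icc (1 / 8) 1) (fun s x => x * (1 - x) / PP w s x) s x| ≤ C * s ^ 10 := by
    obtain ⟨G1, hG1, hG1u⟩ := hphi
    obtain ⟨C, hC0, hC⟩ := bound (smIK_dx ht1p hab hG1) (s2 := t1 / 2) (by linarith)
    refine ⟨C, hC0, fun s hs x hx => ?_⟩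
    have hs' : s ∈ Ico 0 t1 := ⟨hs.1, hs.2.trans_lt (by linarith)⟩
    have d1 := hasDx hab (smphi hwu' hPu') hs' hx
    have d2 := hasDx hab (smphi hwu hPu) hs' hx
    have d3 := (hasDx hab hG1 hs' hx).const_mul (s ^ 10)
    have d4 := d1.sub d2
    have d5 : HasDerivWithinAt (fun y => y * (1 - y) / PP w' s y - y * (1 - y) / PP w s y)
        (s ^ 10 * dxK (Icc (1 / 8) 1) G1 s x) (Icc (1 / 8) 1) x :=
      d3.congr (fun y hy => hG1u s hs' y hy) (hG1u s hs' x hx)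
    have d6 := (uniqueDiffOn_Icc hab x hx).eq_deriv _ d4 d5
    rw [d6, abs_mul, abs_of_nonneg (pow_nonneg hs.1 10), mul_comm]
    exact mul_le_mul_of_nonneg_right (hC s hs x hx) (pow_nonneg hs.1 10)
  obtain ⟨CX, hCX0, hCX⟩ := hphix
  obtain ⟨t2, ht2p, ht2l, ht2⟩ := om_small ht1p hab (n := 9) hinv
  set s3 := min (min t2 (t1 / 2)) (1 / (CX + 1)) with hs3
  have hs3p : 0 < s3 := lt_min (lt_min ht2p (by linarith)) (by positivity)
  have hs3a : s3 ≤ t2 := (min_le_left _ _).trans (min_le_left _ _)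
  have hs3b : s3 ≤ t1 / 2 := (min_le_left _ _).trans (min_le_right _ _)
  have hs3c : s3 ≤ 1 / (CX + 1) := min_le_right _ _
  refine ⟨s3, hs3p, ?_, ?_, ?_⟩
  · calc s3 ≤ t1 / 2 := hs3b
      _ ≤ t0 := by linarith
      _ ≤ s2 := min_le_right _ _
  · intro s hs x hx
    have hst1 : s ∈ Ico 0 t1 := ⟨hs.1, hs.2.trans_le (hs3b.trans (by linarith))⟩
    have hst0 : s ∈ Ico 0 t0 := hsub3 hst1
    have hsI : s ∈ Icc 0 (s1 / 2) := ⟨hst0.1, hst0.2.le.trans (min_le_left _ _)⟩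
    have hp := hPu' s hst1 x hx
    refine ⟨hp, ?_, ?_, ?_⟩
    · rw [hc1]
      apply one_div_le_one_div_of_le hp
      rw [hdiff s hst0 x hx]
      have h1 := (abs_le.1 (hCP s hsI x hx)).2
      have h2 := (abs_le.1 (hsm s hst1 x hx)).2
      have h3 : e ≤ 1 := by
        rw [he, div_le_one (by positivity)]; linarith
      linarith
    · have h1 : 1 / PP w' s x ≤ 1 / e := one_div_le_one_div_of_le hepos (hP' s hst1 x hx)
      have h2 : 1 / e = 2 * (CI + 1) := by rw [he]; field_simp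
      rw [hC1]; linarith
    · have h1 := hCX s ⟨hs.1, hs.2.le.trans hs3b⟩ x hx
      have h2 := hCD s hsI x hx
      have h3 : CX * s ^ 10 ≤ 1 := by
        have hs1' : s ≤ 1 := hst1.2.le.trans ht1b
        have h4 : s ^ 10 ≤ s := by
          have := pow_le_pow_of_le_one hs.1 hs1' (show 1 ≤ 10 by norm_num)
          simpa using this
        calc CX * s ^ 10 ≤ (CX + 1) * (1 / (CX + 1)) := by
              apply mul_le_mul (by linarith) (h4.trans (hs.2.le.trans hs3c))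
                (pow_nonneg hs.1 _) (by linarith)
          _ = 1 := by field_simp
      have h5 := abs_le.1 h1
      have h6 := abs_le.1 h2
      rw [abs_le, hC1]
      constructor <;> linarith
  · intro s hs x hx j hj
    have hst1 : s ∈ Ioo 0 t1 := ⟨hs.1, hs.2.trans_le (hs3b.trans (by linarith))⟩
    have hst0 : s ∈ Ico 0 t0 := hsub3 ⟨hst1.1.le, hst1.2⟩
    have e1 := iter_eq ht1p hab (smI hwu' hPu') hx j s hst1
    have e2 := iter_eq ht1p hab (smI hwu hPu) hx j s hst1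
    have hb := hCJ j hj s ⟨hs.1, hst0.2.le.trans (min_le_left _ _)⟩ x hx
    have hd : SmIK (Ico 0 t1) (Icc (1 / 8) 1) (fun s x => 1 / PP w' s x - 1 / PP w s x) :=
      ContDiffOn.sub (smI hwu' hPu') (smI hwu hPu)
    have e3 := iter_eq ht1p hab hd hx j s hst1
    have h9 := ht2 j hj s ⟨hs.1, hs.2.trans_le hs3a⟩ x hx
    have e4 : iteratedDeriv j (fun r => 1 / PP w' r x - 1 / PP w r x) s =
        iteratedDeriv j (fun r => 1 / PP w' r x) s - iteratedDeriv j (fun r => 1 / PP w r x) s := by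
      have c1 : ContDiffAt ℝ j (fun r => 1 / PP w' r x) s := by
        have : ContDiffOn ℝ (⊤ : ℕ∞) (fun r => 1 / PP w' r x) (Ioo 0 t1) := by
          have hh := smI hwu' hPu'
          exact ContDiffOn.comp (f := fun r : ℝ => (r, x)) hh
            (contDiff_id.prodMk contDiff_const).contDiffOn (fun r hr => ⟨⟨hr.1.le, hr.2⟩, hx⟩)
        exact ((this.contDiffAt (Ioo_mem_nhds hst1.1 hst1.2)).of_le (by exact_mod_cast le_top))
      have c2 : ContDiffAt ℝ j (fun r => 1 / PP w r x) s := by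
        have : ContDiffOn ℝ (⊤ : ℕ∞) (fun r => 1 / PP w r x) (Ioo 0 t1) := by
          have hh := smI hwu hPu
          exact ContDiffOn.comp (f := fun r : ℝ => (r, x)) hh
            (contDiff_id.prodMk contDiff_const).contDiffOn (fun r hr => ⟨⟨hr.1.le, hr.2⟩, hx⟩)
        exact ((this.contDiffAt (Ioo_mem_nhds hst1.1 hst1.2)).of_le (by exact_mod_cast le_top))
      exact iteratedDeriv_sub c1 c2
    rw [e4] at e3
    have e5 : iteratedDeriv j (fun r => 1 / PP w' r x) s =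
        iteratedDeriv j (fun r => 1 / PP w r x) s +
          (ds^[j] (fun s x => 1 / PP w' s x - 1 / PP w s x)) s x := by linarith
    rw [e5, hC1]
    have h10 := abs_add_le (iteratedDeriv j (fun r => 1 / PP w r x) s)
      ((ds^[j] (fun s x => 1 / PP w' s x - 1 / PP w s x)) s x)
    linarith

end Crest.Agent.R213.D
end
end

-- ▼ part R213/D/GlueRes
section

/-!
# Row 213, part D: the glued approximate solution and its residual (helper430)
-/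

set_option autoImplicit false

open Set Filter Topology

noncomputable section

namespace Crest.Agent.R213.D

/-! ### from `SmIK` (smooth up to `s = 0`) to the classes `Ord` -/

section smIK

variable {s1 s a b : ℝ} {u : ℝ → ℝ → ℝ}

lemma dxK_eq_dX {t x : ℝ} (hx : x ∈ Ioo a b) : dxK (Icc a b) u t x = dX u t x :=
  derivWithin_of_mem_nhds (Icc_mem_nhds hx.1 hx.2)

lemma ds_eq_dt {t x : ℝ} (ht : 0 < t) : ds u t x = dt u t x :=
  derivWithin_of_mem_nhds (Ici_mem_nhds ht)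

lemma smU_of_smIK (hs : s ≤ s1) (hu : SmIK (Ico 0 s1) (Icc a b) u) :
    SmU (Ioo 0 s ×ˢ Ioo a b) u :=
  ContDiffOn.mono hu (prod_mono (fun _ ht => ⟨ht.1.le, ht.2.trans_le hs⟩) Ioo_subset_Icc_self)

lemma smIK_X1 (hs1 : 0 < s1) (hab : a < b) (hu : SmIK (Ico 0 s1) (Icc a b) u) :
    SmIK (Ico 0 s1) (Icc a b) (fun t x => t * ds u t x) :=
  contDiff_fst.contDiffOn.mul (OB.smIK_ds hs1 hab hu)

lemma bd0_of_smIK (hs : s < s1) (hu : SmIK (Ico 0 s1) (Icc a b) u) : Bd s (Ioo a b) 0 u := by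
  obtain ⟨C, hC, h⟩ := OB.bound hu hs
  refine ⟨C, hC, fun t ht x hx => ?_⟩
  simpa using h t ⟨ht.1.le, ht.2.le⟩ x ⟨hx.1.le, hx.2.le⟩

lemma ordN0_of_smIK (hs1 : 0 < s1) (hs : s < s1) (hab : a < b) : ∀ (n : ℕ) {u : ℝ → ℝ → ℝ},
    SmIK (Ico 0 s1) (Icc a b) u → OrdN s (Ioo a b) 0 n u
  | 0, _, hu => bd0_of_smIK hs hu
  | n + 1, u, hu => by
    refine ⟨bd0_of_smIK hs hu, ?_, ?_⟩
    · refine OrdN.congr isOpen_Ioo (ordN0_of_smIK hs1 hs hab n (smIK_X1 hs1 hab hu)) ?_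
      rintro ⟨t, x⟩ hp
      simp only [X1]; rw [ds_eq_dt hp.1.1]
    · refine OrdN.congr isOpen_Ioo (ordN0_of_smIK hs1 hs hab n (OB.smIK_dx hs1 hab hu)) ?_
      rintro ⟨t, x⟩ hp
      exact dxK_eq_dX hp.2

/-- functions smooth up to `s = 0` are in `Ord 0`. -/
theorem ord0_of_smIK (hs1 : 0 < s1) (hs : s < s1) (hab : a < b)
    (hu : SmIK (Ico 0 s1) (Icc a b) u) : Ord s (Ioo a b) 0 u :=
  ⟨smU_of_smIK hs.le hu, fun n => ordN0_of_smIK hs1 hs hab n hu⟩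

lemma bd1_of_smIK (hs1 : 0 < s1) (hs : s < s1) (hab : a < b) (hu : SmIK (Ico 0 s1) (Icc a b) u)
    (h0 : ∀ x ∈ Icc a b, u 0 x = 0) : Bd s (Ioo a b) 1 u := by
  obtain ⟨C, hC, h⟩ := OB.bound (OB.smIK_ds hs1 hab hu) hs
  refine ⟨C, hC, fun t ht x hx => ?_⟩
  have hxI : x ∈ Icc a b := ⟨hx.1.le, hx.2.le⟩
  have h1 : ‖u t x - u 0 x‖ ≤ C * ‖t - 0‖ := by
    refine Convex.norm_image_sub_le_of_norm_hasDerivWithin_le (s := Icc 0 t)
      (f := fun r => u r x) (f' := fun r => ds u r x)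
      (fun y hy => ?_) (fun y hy => ?_) (convex_Icc 0 t)
      (left_mem_Icc.2 ht.1.le) (right_mem_Icc.2 ht.1.le)
    · exact (OB.hasDs' hu ⟨hy.1, (hy.2.trans_lt ht.2).trans hs⟩ hxI).mono
        (fun z hz => mem_Ici.2 hz.1)
    · rw [Real.norm_eq_abs]
      exact h y ⟨hy.1, (hy.2.trans_lt ht.2).le⟩ x hxI
  rw [h0 x hxI, sub_zero, sub_zero, Real.norm_eq_abs, Real.norm_eq_abs, abs_of_pos ht.1] at h1
  simpa using h1

lemma ordN1_of_smIK (hs1 : 0 < s1) (hs : s < s1) (hab : a < b) : ∀ (n : ℕ) {u : ℝ → ℝ → ℝ},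
    SmIK (Ico 0 s1) (Icc a b) u → (∀ x ∈ Icc a b, u 0 x = 0) → OrdN s (Ioo a b) 1 n u
  | 0, _, hu, h0 => bd1_of_smIK hs1 hs hab hu h0
  | n + 1, u, hu, h0 => by
    refine ⟨bd1_of_smIK hs1 hs hab hu h0, ?_, ?_⟩
    · refine OrdN.congr isOpen_Ioo (ordN1_of_smIK hs1 hs hab n (smIK_X1 hs1 hab hu)
        (fun x _ => by simp)) ?_
      rintro ⟨t, x⟩ hp
      simp only [X1]; rw [ds_eq_dt hp.1.1]
    · refine OrdN.congr isOpen_Ioo (ordN1_of_smIK hs1 hs hab n (OB.smIK_dx hs1 hab hu) ?_) ?_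
      · intro x hx
        show derivWithin (fun y => u 0 y) (Icc a b) x = 0
        rw [derivWithin_congr (f := fun _ => (0 : ℝ)) (fun y hy => h0 y hy) (h0 x hx)]
        simp
      · rintro ⟨t, x⟩ hp
        exact dxK_eq_dX hp.2

/-- functions smooth up to `s = 0` and zero there are in `Ord 1`. -/
theorem ord1_of_smIK (hs1 : 0 < s1) (hs : s < s1) (hab : a < b)
    (hu : SmIK (Ico 0 s1) (Icc a b) u) (h0 : ∀ x ∈ Icc a b, u 0 x = 0) : Ord s (Ioo a b) 1 u :=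
  ⟨smU_of_smIK hs.le hu, fun n => ordN1_of_smIK hs1 hs hab n hu h0⟩

/-- lower bound by compactness. -/
lemma low_of_smIK (hs : s < s1) (hs0 : 0 ≤ s) (hab : a ≤ b) (hu : SmIK (Ico 0 s1) (Icc a b) u)
    (hpos : ∀ t ∈ Icc 0 s, ∀ x ∈ Icc a b, 0 < u t x) :
    ∃ c > 0, ∀ t ∈ Icc 0 s, ∀ x ∈ Icc a b, c ≤ u t x := by
  have hK : IsCompact (Icc 0 s ×ˢ Icc a b) := isCompact_Icc.prod isCompact_Icc
  have hc : ContinuousOn (fun p : ℝ × ℝ => u p.1 p.2) (Icc 0 s ×ˢ Icc a b) :=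
    (ContDiffOn.continuousOn hu).mono
      (prod_mono (fun t ht => ⟨ht.1, lt_of_le_of_lt ht.2 hs⟩) subset_rfl)
  have hne : (Icc 0 s ×ˢ Icc a b).Nonempty :=
    ⟨(0, a), left_mem_Icc.2 hs0, left_mem_Icc.2 hab⟩
  obtain ⟨p0, hp0, hmin⟩ := hK.exists_isMinOn hne hc
  exact ⟨u p0.1 p0.2, hpos _ hp0.1 _ hp0.2, fun t ht x hx => hmin (mk_mem_prod ht hx)⟩

end smIK

lemma Ord.iter_dt {s : ℝ} {I : Set ℝ} (hI : IsOpen I) : ∀ (j : ℕ) {k : ℕ} {F : ℝ → ℝ → ℝ},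
    Ord s I (k + j) F → Ord s I k (R213.dt^[j] F)
  | 0, _, _, h => h
  | j + 1, k, F, h => by
    rw [Function.iterate_succ_apply]
    exact Ord.iter_dt hI j (Ord.dt hI (M := k + j) h)

lemma iter_dt_zero' {F : ℝ → ℝ → ℝ} {s x : ℝ} (h : ∀ t ∈ Ioo 0 s, F t x = 0) :
    ∀ j : ℕ, ∀ t ∈ Ioo 0 s, (dt^[j] F) t x = 0 := by
  intro j
  induction j with
  | zero => exact h
  | succ j ih =>
    intro t ht
    rw [Function.iterate_succ_apply']
    have hev : (fun r => (dt^[j] F) r x) =ᶠ[𝓝 t] fun _ => 0 := by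
      filter_upwards [Ioo_mem_nhds ht.1 ht.2] with r hr using ih r hr
    show deriv (fun r => (dt^[j] F) r x) t = 0
    rw [hev.deriv_eq]; simp

/-! ### the glued function -/

/-- packaged conclusion of `formal`. -/
structure FormalSol (c : ℝ) (a : ℕ → ℝ → ℝ) : Prop where
  sm : ∀ j, ContDiff ℝ (⊤ : ℕ∞) (a j)
  supp : ∀ j x, x ∉ Icc (1 / 32 : ℝ) (3 / 4) → a j x = 0
  zero : ∀ x ∈ Icc (1 / 16 : ℝ) (1 / 2), a 0 x = 1 / (c * x) - 1 / x - 1 / (1 - x)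
  pos : ∀ x, 0 < 1 + x * (1 - x) * a 0 x
  res : ∀ M : ℕ, ∃ s > 0, ∃ c1 > 0, (∀ t ∈ Ioo (-s) s, ∀ x, c1 ≤ Pw (wM a M) t x) ∧
    Ord s (Ioo (-1) 2) M (resid (wM a M))

theorem formalSol_exists {c : ℝ} (hc : 0 < c) : ∃ a : ℕ → ℝ → ℝ, FormalSol c a := by
  obtain ⟨a, h1, h2, h3, h4, h5⟩ := formal hc
  exact ⟨a, h1, h2, h3, h4, h5⟩

/-- the glued approximate solution. -/
def gW (g χ : ℝ → ℝ) (a : ℕ → ℝ → ℝ) (M : ℕ) : ℝ → ℝ → ℝ := fun t x =>
  χ x * win g t x + (1 - χ x) * wM a M t x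

/-- its domain. -/
def gU (g : ℝ → ℝ) (s1 : ℝ) : Set (ℝ × ℝ) :=
  {p | p.1 ∈ Ioo 0 s1 ∧ ((p.2 < 3 / 16 ∧ 0 < g (p.2 / √p.1)) ∨ (1 / 8 < p.2 ∧ p.2 < 2))}

variable {c A : ℝ} {g gh : ℝ → ℝ} {s1 : ℝ}

/-- inner piece of the domain. -/
def gU1 (g : ℝ → ℝ) (s1 : ℝ) : Set (ℝ × ℝ) := Ug g ∩ Ioo 0 s1 ×ˢ Iio (3 / 16)

lemma gU_eq (g : ℝ → ℝ) (s1 : ℝ) : gU g s1 = gU1 g s1 ∪ Ioo 0 s1 ×ˢ Ioo (1 / 8) 2 := by
  ext p
  simp only [gU, gU1, Ug, mem_ofPred_eq, mem_union, mem_inter_iff, mem_prod, mem_Iio, mem_Ioo]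
  constructor
  · rintro ⟨⟨h1, h2⟩, h3 | h3⟩
    · left; exact ⟨⟨h1, h3.1.trans (by norm_num), h3.2⟩, ⟨h1, h2⟩, h3.1⟩
    · right; exact ⟨⟨h1, h2⟩, h3⟩
  · rintro (⟨⟨h1, h2, h3⟩, ⟨h4, h5⟩, h6⟩ | ⟨h1, h2⟩)
    · exact ⟨⟨h4, h5⟩, Or.inl ⟨h6, h3⟩⟩
    · exact ⟨h1, Or.inr h2⟩

lemma isOpen_gU1 (hg : Soliton c A g gh) : IsOpen (gU1 g s1) :=
  (isOpen_Ug hg).inter (isOpen_Ioo.prod isOpen_Iio)

theorem isOpen_gU (hg : Soliton c A g gh) : IsOpen (gU g s1) := by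
  rw [gU_eq]
  exact (isOpen_gU1 hg).union (isOpen_Ioo.prod isOpen_Ioo)

theorem mem_gU (hg : Soliton c A g gh) {s x : ℝ} (hs : s ∈ Ioo 0 s1) (hx : x ∈ Icc (0 : ℝ) 1) :
    (s, x) ∈ gU g s1 := by
  refine ⟨hs, ?_⟩
  rcases lt_or_ge x (3 / 16) with h | h
  · left; exact ⟨h, hg.pos _ (div_nonneg hx.1 (Real.sqrt_nonneg _))⟩
  · right; exact ⟨by simp only; linarith, by simp only; linarith [hx.2]⟩

lemma gW_inner {χ : ℝ → ℝ} (h1 : ∀ x, x ≤ 3 / 16 → χ x = 1) (a : ℕ → ℝ → ℝ) (M : ℕ) {t x : ℝ}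
    (hx : x ≤ 3 / 16) : gW g χ a M t x = win g t x := by
  simp only [gW]; rw [h1 x hx]; ring

lemma gW_outer {χ : ℝ → ℝ} (h0 : ∀ x, 1 / 4 ≤ x → χ x = 0) (a : ℕ → ℝ → ℝ) (M : ℕ) {t x : ℝ}
    (hx : 1 / 4 ≤ x) : gW g χ a M t x = wM a M t x := by
  simp only [gW]; rw [h0 x hx]; ring

/-- `Pw` of a convex combination. -/
lemma Pw_comb {w v : ℝ → ℝ → ℝ} {χ : ℝ → ℝ} {t x : ℝ} :
    Pw (fun t x => χ x * w t x + (1 - χ x) * v t x) t x =
      χ x * Pw w t x + (1 - χ x) * Pw v t x := by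
  simp only [Pw]; ring

lemma comb_ge {l p q m : ℝ} (hl : l ∈ Icc (0 : ℝ) 1) (hp : m ≤ p) (hq : m ≤ q) :
    m ≤ l * p + (1 - l) * q := by
  have h1 := mul_le_mul_of_nonneg_left hp hl.1
  have h2 := mul_le_mul_of_nonneg_left hq (sub_nonneg.2 hl.2)
  linarith

/-- everything in the gluing zone. -/
theorem glue_zone (hg : Soliton c A g gh) {χ : ℝ → ℝ} (hχ : ContDiff ℝ (⊤ : ℕ∞) χ)
    (h01 : ∀ x, χ x ∈ Icc (0 : ℝ) 1) {a : ℕ → ℝ → ℝ} (ha : FormalSol c a) (M : ℕ) {s c1 : ℝ}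
    (hs : 0 < s) (hc1 : 0 < c1) (hP : ∀ t ∈ Ioo (-s) s, ∀ x, c1 ≤ Pw (wM a M) t x)
    (hR : Ord s (Ioo (-1) 2) M (resid (wM a M))) {s1 : ℝ} (hs1 : 0 < s1) (h1s : s1 < s) :
    SmU (Ioo 0 s1 ×ˢ Ioo (1 / 8) (1 / 2)) (gW g χ a M) ∧
      (∀ p ∈ Ioo 0 s1 ×ˢ Ioo (1 / 8 : ℝ) (1 / 2), 0 < Pw (gW g χ a M) p.1 p.2) ∧
      Ord s1 (Ioo (1 / 8) (1 / 2)) M (resid (gW g χ a M)) := by
  set I : Set ℝ := Ioo (1 / 8) (1 / 2) with hIdef
  have hI : IsOpen I := isOpen_Ioo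
  have hIb : I ⊆ Icc (1 / 8) (1 / 2) := Ioo_subset_Icc_self
  have hab : (1 / 8 : ℝ) < 1 / 2 := by norm_num
  have hsm := smIK_winh hg (a := 1 / 8) (b := 1 / 2) (by norm_num) (by norm_num)
  have hsm' : SmIK (Ico 0 s) (Icc (1 / 8) (1 / 2)) (winh gh) :=
    ContDiffOn.mono hsm (prod_mono Ico_subset_Ici_self subset_rfl)
  have hwM : SmU univ (wM a M) := wM_sm ha.sm M
  have hwM' : SmIK (Ico 0 s) (Icc (1 / 8) (1 / 2)) (wM a M) := ContDiffOn.mono hwM (subset_univ _)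
  -- `win = winh` on the domain
  have ew : ∀ p ∈ Ioo 0 s1 ×ˢ I, winh gh p.1 p.2 = win g p.1 p.2 := fun p hp =>
    (win_eq_winh hg hp.1.1 (lt_trans (by norm_num) hp.2.1)).symm
  have ow : Ord s1 I 0 (win g) := (ord0_of_smIK hs h1s hab hsm').congr hI ew
  have ov : Ord s1 I 0 (wM a M) := ord0_of_smIK hs h1s hab hwM'
  have od : Ord s1 I 1 (fun t x => win g t x - wM a M t x) := by
    refine (ord1_of_smIK (u := fun t x => winh gh t x - wM a M t x) hs h1s hab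
      (ContDiffOn.sub hsm' hwM') ?_).congr hI ?_
    · intro x hx
      have e1 : wM a M 0 x = a 0 x := by
        simp only [wM]
        rw [Finset.sum_eq_single 0]
        · simp
        · intro j _ hj; simp [hj]
        · intro h; exact absurd (Finset.mem_range.2 (Nat.succ_pos M)) h
      rw [winh_zero hg, e1, ha.zero x ⟨by linarith [hx.1], hx.2⟩]
      have hx0 : x ≠ 0 := by have := hx.1; intro h; rw [h] at this; norm_num at this
      have hc := hg.c_pos.ne'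
      field_simp
      ring
    · intro p hp; rw [ew p hp]
  -- positivity of `Pw win`
  have hPsm : SmIK (Ico 0 s) (Icc (1 / 8) (1 / 2)) (Pw (winh gh)) := SmU.Pw hsm'
  obtain ⟨c2, hc2, hlow⟩ := low_of_smIK (s := s1) h1s hs1.le hab.le hPsm (by
    intro t ht x hx
    have hx0 : 0 < x := lt_of_lt_of_le (by norm_num) hx.1
    have hx1 : x < 1 := lt_of_le_of_lt hx.2 (by norm_num)
    have hgp : 0 < gh (t / x ^ 2) := gh_pos hg (div_nonneg ht.1 (sq_nonneg _))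
    have e : Pw (winh gh) t x = (1 - x) / gh (t / x ^ 2) := by
      simp only [Pw, winh]
      have h1 : 1 - x ≠ 0 := by linarith
      field_simp
      ring
    rw [e]
    exact div_pos (by linarith) hgp)
  have hPwin : ∀ t ∈ Ioo 0 s1, ∀ x ∈ I, min c1 c2 ≤ Pw (win g) t x := by
    intro t ht x hx
    have h1 := hlow t ⟨ht.1.le, ht.2.le⟩ x (hIb hx)
    have h2 : Pw (winh gh) t x = Pw (win g) t x := by
      simp only [Pw]; rw [ew (t, x) ⟨ht, hx⟩]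
    rw [← h2]; exact (min_le_right _ _).trans h1
  have hPwM : ∀ t ∈ Ioo 0 s1, ∀ x ∈ I, min c1 c2 ≤ Pw (wM a M) t x := fun t ht x _ =>
    (min_le_left _ _).trans (hP t ⟨by linarith [ht.1], ht.2.trans h1s⟩ x)
  have hm : 0 < min c1 c2 := lt_min hc1 hc2
  -- residuals
  have rwin : Ord s1 I M (resid (win g)) := by
    have hz : Ord s1 I M (fun _ _ => (0 : ℝ)) := by
      have := (ord_const (s := s1) hI 0).mul0 hI (ord_tpow (s := s1) hI M)
      exact this.congr hI (fun p _ => by simp)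
    refine hz.congr hI ?_
    rintro ⟨t, x⟩ hp
    exact (resid_win hg hp.1.1 (le_trans (by norm_num) hp.2.1.le)
      (lt_trans hp.2.2 (by norm_num))).symm
  have rwM : Ord s1 I M (resid (wM a M)) :=
    hR.mono_dom h1s.le (Ioo_subset_Ioo (by norm_num) (by norm_num))
  have hmatch := matching hI hIb ow ov hm hPwin hPwM od rwin rwM
  -- the glued function
  have oχ : Ord s1 I 0 (fun _ x => χ x) := ord_of_x' hχ
  have oW : Ord s1 I 0 (gW g χ a M) :=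
    (oχ.mul0 hI ow).add hI (((ord_const hI 1).sub hI oχ).mul0 hI ov)
  have hPW : ∀ t ∈ Ioo 0 s1, ∀ x ∈ I, min c1 c2 ≤ Pw (gW g χ a M) t x := by
    intro t ht x hx
    have e : Pw (gW g χ a M) t x = χ x * Pw (win g) t x + (1 - χ x) * Pw (wM a M) t x := Pw_comb
    rw [e]
    exact comb_ge (h01 x) (hPwin t ht x hx) (hPwM t ht x hx)
  have hdiff : Ord s1 I (M + 1) (fun t x => gW g χ a M t x - wM a M t x) := by
    refine (oχ.mul0 hI hmatch).congr hI ?_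
    rintro ⟨t, x⟩ _
    simp only [gW]; ring
  have h1 := ord_dXdXSop_sub hI hIb oW ov hm hPW hPwM hdiff
  have h2 := hdiff.dt hI
  refine ⟨oW.sm, fun p hp => hm.trans_le (hPW p.1 hp.1 p.2 hp.2), ?_⟩
  refine ((rwM.add hI h2).sub hI (h1.mono_M (Nat.le_succ M))).congr hI ?_
  rintro ⟨t, x⟩ hp
  simp only
  rw [dt_sub oW.sm ov.sm (isOpen_dom hI) hp]
  simp only [resid]; ring

/-- **the residual of the glued approximate solution.** -/
theorem glue_res (hg : Soliton c A g gh) {χ : ℝ → ℝ} (hχ : ContDiff ℝ (⊤ : ℕ∞) χ)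
    (h1 : ∀ x, x ≤ 3 / 16 → χ x = 1) (h0 : ∀ x, 1 / 4 ≤ x → χ x = 0)
    (h01 : ∀ x, χ x ∈ Icc (0 : ℝ) 1) {a : ℕ → ℝ → ℝ} (ha : FormalSol c a) (M : ℕ) :
    ∃ s0 > 0, ∀ s1, 0 < s1 → s1 ≤ s0 → SmU (gU g s1) (gW g χ a M) ∧
      (∀ p ∈ gU g s1, 0 < Pw (gW g χ a M) p.1 p.2) ∧
      (∀ p ∈ gU g s1, p.2 < 3 / 16 → gW g χ a M p.1 p.2 = win g p.1 p.2) ∧
      (∀ s ∈ Ioo 0 s1, ∀ x ∈ Ico (0 : ℝ) (3 / 16), resid (gW g χ a M) s x = 0) ∧
      (∀ s ∈ Ioo 0 s1, Sop (gW g χ a M) s 0 = 110 * A / √s) ∧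
      (∀ j ≤ M, ∃ C, ∀ s ∈ Ioo 0 s1, ∀ x ∈ Icc (0 : ℝ) 1,
        |(dt^[j] (resid (gW g χ a M))) s x| ≤ C * s ^ (M - j)) := by
  obtain ⟨s, hs, c1, hc1, hP, hR⟩ := ha.res M
  refine ⟨s / 2, by linarith, ?_⟩
  intro s1 hs1 hs1s
  have h1s : s1 < s := by linarith
  obtain ⟨z1, z2, z3⟩ := glue_zone hg hχ h01 ha M hs hc1 hP hR hs1 h1s
  have hwM : SmU univ (wM a M) := wM_sm ha.sm M
  have eI : ∀ p ∈ gU1 g s1, gW g χ a M p.1 p.2 = win g p.1 p.2 := fun p hp =>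
    gW_inner h1 a M (le_of_lt hp.2.2)
  have eO : ∀ p ∈ Ioo 0 s1 ×ˢ Ioo (1 / 4 : ℝ) 2, gW g χ a M p.1 p.2 = wM a M p.1 p.2 :=
    fun p hp => gW_outer h0 a M hp.2.1.le
  have sm1 : SmU (gU1 g s1) (gW g χ a M) := ((smU_win hg).mono inter_subset_left).congr eI
  have sm3 : SmU (Ioo 0 s1 ×ˢ Ioo (1 / 4 : ℝ) 2) (gW g χ a M) := (hwM.mono (subset_univ _)).congr eO
  have hcov : Ioo 0 s1 ×ˢ Ioo (1 / 8 : ℝ) 2 =
      Ioo 0 s1 ×ˢ Ioo (1 / 8 : ℝ) (1 / 2) ∪ Ioo 0 s1 ×ˢ Ioo (1 / 4 : ℝ) 2 := by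
    rw [← prod_union]
    congr 1
    ext x
    simp only [mem_union, mem_Ioo]
    constructor
    · intro h
      rcases lt_or_ge x (1 / 2) with h2 | h2
      · left; exact ⟨h.1, h2⟩
      · right; exact ⟨by linarith, h.2⟩
    · rintro (h | h)
      · exact ⟨h.1, by linarith [h.2]⟩
      · exact ⟨by linarith [h.1], h.2⟩
  have hinner : ∀ s ∈ Ioo 0 s1, ∀ x ∈ Ico (0 : ℝ) (3 / 16), resid (gW g χ a M) s x = 0 := by
    intro t ht x hx
    have hp : (t, x) ∈ gU1 g s1 :=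
      ⟨mem_Ug hg ht.1 hx.1 (lt_trans hx.2 (by norm_num)), ht, hx.2⟩
    rw [resid_congr (isOpen_gU1 hg) eI (t, x) hp]
    exact resid_win hg ht.1 hx.1 (lt_trans hx.2 (by norm_num))
  have hR3 : Ord s1 (Ioo (1 / 4) 2) M (resid (gW g χ a M)) := by
    refine (hR.mono_dom h1s.le (Ioo_subset_Ioo (by norm_num) le_rfl)).congr isOpen_Ioo ?_
    intro p hp
    exact (resid_congr (isOpen_Ioo.prod isOpen_Ioo) eO p hp).symm
  refine ⟨?_, ?_, ?_, hinner, ?_, ?_⟩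
  · rw [gU_eq, hcov]
    exact ContDiffOn.union_of_isOpen sm1
      (ContDiffOn.union_of_isOpen z1 sm3 (isOpen_Ioo.prod isOpen_Ioo) (isOpen_Ioo.prod isOpen_Ioo))
      (isOpen_gU1 hg) ((isOpen_Ioo.prod isOpen_Ioo).union (isOpen_Ioo.prod isOpen_Ioo))
  · intro p hp
    rw [gU_eq, hcov] at hp
    rcases hp with hp | hp | hp
    · have h2 := Pw_win_pos hg hp.1
      simp only [Pw] at h2 ⊢
      rw [eI p hp]; exact h2
    · exact z2 p hp
    · have h2 := hP p.1 ⟨by linarith [hp.1.1], hp.1.2.trans h1s⟩ p.2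
      simp only [Pw] at h2 ⊢
      rw [eO p hp]
      exact hc1.trans_le h2
  · intro p _ hp
    exact gW_inner h1 a M hp.le
  · intro t ht
    have hp : (t, (0 : ℝ)) ∈ gU1 g s1 :=
      ⟨mem_Ug hg ht.1 le_rfl (by norm_num), ht, by simp only [mem_Iio]; norm_num⟩
    rw [Sop_congr (isOpen_gU1 hg) eI (t, 0) hp]
    exact Sop_win_zero hg ht.1
  · intro j hj
    have hMj : M - j + j = M := by omega
    have q2 : Ord s1 (Ioo (1 / 8) (1 / 2)) (M - j) (dt^[j] (resid (gW g χ a M))) :=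
      Ord.iter_dt isOpen_Ioo j (by rw [hMj]; exact z3)
    have q3 : Ord s1 (Ioo (1 / 4) 2) (M - j) (dt^[j] (resid (gW g χ a M))) :=
      Ord.iter_dt isOpen_Ioo j (by rw [hMj]; exact hR3)
    obtain ⟨C2, hC2, b2⟩ := q2.bd 0
    obtain ⟨C3, hC3, b3⟩ := q3.bd 0
    refine ⟨C2 + C3, fun t ht x hx => ?_⟩
    have htp : 0 ≤ t ^ (M - j) := pow_nonneg ht.1.le _
    have e2 : 0 ≤ C2 * t ^ (M - j) := mul_nonneg hC2 htp
    have e3 : 0 ≤ C3 * t ^ (M - j) := mul_nonneg hC3 htp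
    rcases lt_or_ge x (3 / 16) with h | h
    · rw [iter_dt_zero' (fun r hr => hinner r hr x ⟨hx.1, h⟩) j t ht, abs_zero, add_mul]
      exact add_nonneg e2 e3
    · rcases lt_or_ge x (1 / 2) with h' | h'
      · have := b2 t ht x ⟨by linarith, h'⟩
        rw [add_mul]; linarith
      · have := b3 t ht x ⟨by linarith, by linarith [hx.2]⟩
        rw [add_mul]; linarith

end Crest.Agent.R213.D
end
end

-- ▼ part R213/D/InnerBd
section

/-!
# Row 213, part D, D1b: bounds for the self-similar profile (helper690)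
-/

set_option autoImplicit false

open Set MeasureTheory Filter Topology

noncomputable section

namespace Crest.Agent.R213.D

variable {c A : ℝ} {g gh : ℝ → ℝ}

/-- all derivatives from a chain of `HasDerivAt`s on an open set -/
theorem iteratedDeriv_chain {U : Set ℝ} (hU : IsOpen U) {u : ℝ → ℝ} {F : ℕ → ℝ → ℝ}
    (h0 : ∀ r ∈ U, u r = F 0 r) (h : ∀ j, ∀ r ∈ U, HasDerivAt (F j) (F (j + 1) r) r) (j : ℕ) :
    ∀ r ∈ U, iteratedDeriv j u r = F j r := by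
  induction j with
  | zero => intro r hr; rw [iteratedDeriv_zero]; exact h0 r hr
  | succ j ih =>
    intro r hr
    rw [iteratedDeriv_succ]
    have : iteratedDeriv j u =ᶠ[𝓝 r] F j := by
      filter_upwards [hU.mem_nhds hr] with z hz using ih z hz
    rw [this.deriv_eq]
    exact (h j r hr).deriv

theorem gh_pos' (hg : Soliton c A g gh) {z : ℝ} (hz : 0 ≤ z) : 0 < gh z := by
  rcases hz.eq_or_lt with h | h
  · rw [← h, hg.gh_zero]; exact hg.c_pos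
  · have hs : 0 < √z := Real.sqrt_pos.2 h
    have h1 := hg.link (1 / √z) (by positivity)
    have h2 : 1 / (1 / √z) ^ 2 = z := by
      rw [div_pow, one_pow, Real.sq_sqrt h.le, one_div_one_div]
    rw [h2] at h1
    rw [← h1]
    exact hg.pos _ (by positivity)

/-- a continuous function on `[0,1]` is bounded -/
theorem bdd_Icc {F : ℝ → ℝ} (hF : ContinuousOn F (Icc 0 1)) :
    ∃ C : ℝ, 0 ≤ C ∧ ∀ y ∈ Icc (0 : ℝ) 1, |F y| ≤ C := by
  obtain ⟨C, hC⟩ := isCompact_Icc.exists_bound_of_continuousOn hF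
  refine ⟨C, (norm_nonneg _).trans (hC 0 ⟨le_rfl, zero_le_one⟩), fun y hy => ?_⟩
  rw [← Real.norm_eq_abs]
  exact hC y hy

theorem low_Icc {F : ℝ → ℝ} (hF : ContinuousOn F (Icc 0 1)) (hp : ∀ y ∈ Icc (0 : ℝ) 1, 0 < F y) :
    ∃ m : ℝ, 0 < m ∧ ∀ y ∈ Icc (0 : ℝ) 1, m ≤ F y := by
  obtain ⟨y0, hy0, hmin⟩ := isCompact_Icc.exists_isMinOn ⟨0, ⟨le_rfl, zero_le_one⟩⟩ hF
  exact ⟨F y0, hp y0 hy0, fun y hy => hmin hy⟩

theorem prof_exists (hg : Soliton c A g gh) : ∃ c0 C0 : ℝ, Prof c0 C0 g := by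
  have hgc : Continuous g := hg.smooth.continuous
  have hghc : ContinuousOn gh (Ici 0) := hg.smooth_inf.continuousOn
  have hsub : Icc (0 : ℝ) 1 ⊆ Ici 0 := fun y hy => hy.1
  have hdg : Continuous (deriv g) := hg.smooth.continuous_deriv (by simp)
  have hud : UniqueDiffOn ℝ (Ici (0 : ℝ)) := uniqueDiffOn_Ici 0
  have hdgh : ContinuousOn (derivWithin gh (Ici 0)) (Ici 0) :=
    hg.smooth_inf.continuousOn_derivWithin hud (by simp)
  obtain ⟨m1, hm1, hm1'⟩ := low_Icc hgc.continuousOn fun y hy => hg.pos y hy.1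
  obtain ⟨m2, hm2, hm2'⟩ := low_Icc (hghc.mono hsub) fun y hy => gh_pos' hg hy.1
  obtain ⟨B1, hB1, hB1'⟩ := bdd_Icc hgc.continuousOn
  obtain ⟨B2, hB2, hB2'⟩ := bdd_Icc (hghc.mono hsub)
  obtain ⟨B3, hB3, hB3'⟩ := bdd_Icc hdg.continuousOn
  obtain ⟨B4, hB4, hB4'⟩ := bdd_Icc (hdgh.mono hsub)
  have hz : ∀ y : ℝ, 1 ≤ y → 1 / y ^ 2 ∈ Icc (0 : ℝ) 1 := by
    intro y hy
    refine ⟨by positivity, ?_⟩
    rw [div_le_one (by positivity)]
    exact one_le_pow₀ hy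
  refine ⟨min m1 m2, B1 + B2 + B3 + 2 * B4, ⟨lt_min hm1 hm2, hg.smooth, ?_, ?_, ?_⟩⟩
  · intro y hy
    rcases le_total y 1 with h | h
    · exact (min_le_left _ _).trans (hm1' y ⟨hy, h⟩)
    · rw [hg.link y (by linarith)]
      exact (min_le_right _ _).trans (hm2' _ (hz y h))
  · intro y hy
    rcases le_total y 1 with h | h
    · have := (abs_le.1 (hB1' y ⟨hy, h⟩)).2
      linarith
    · rw [hg.link y (by linarith)]
      have := (abs_le.1 (hB2' _ (hz y h))).2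
      linarith
  · intro y hy
    have hd : HasDerivAt g (deriv g y) y :=
      (hg.smooth.differentiable (by simp) y).hasDerivAt
    have e1 : deriv (fun z => z * g z) y = g y + y * deriv g y := by
      have e0 : HasDerivAt (fun z => z * g z) (1 * g y + y * deriv g y) y :=
        (hasDerivAt_id y).mul hd
      rw [e0.deriv, one_mul]
    rw [e1]
    refine (abs_add_le _ _).trans ?_
    rw [abs_mul, abs_of_nonneg hy]
    rcases le_total y 1 with h | h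
    · have h1 := hB1' y ⟨hy, h⟩
      have h2 := hB3' y ⟨hy, h⟩
      have h3 : y * |deriv g y| ≤ 1 * B3 := mul_le_mul h h2 (abs_nonneg _) zero_le_one
      linarith
    · have hy0 : 0 < y := by linarith
      have h1 := hB2' _ (hz y h)
      have h2 := hB4' _ (hz y h)
      rw [← hg.link y hy0] at h1
      -- derivative of `g` through `gh`
      have hzp : 0 < 1 / y ^ 2 := by positivity
      have h3 : HasDerivAt gh (derivWithin gh (Ici 0) (1 / y ^ 2)) (1 / y ^ 2) :=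
        ((hg.smooth_inf.differentiableOn (by simp) (1 / y ^ 2) hzp.le).hasDerivWithinAt).hasDerivAt
          (Ici_mem_nhds hzp)
      have h4 : HasDerivAt (fun z : ℝ => 1 / z ^ 2) (-2 / y ^ 3) y := by
        have h5 := ((hasDerivAt_pow 2 y).inv (by positivity))
        have e2 : (fun z : ℝ => 1 / z ^ 2) = fun z => (z ^ 2)⁻¹ := by
          funext z; rw [one_div]
        rw [e2]
        refine h5.congr_deriv ?_
        field_simp
        norm_num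
        ring
      have h5 : HasDerivAt g (derivWithin gh (Ici 0) (1 / y ^ 2) * (-2 / y ^ 3)) y := by
        refine (h3.comp y h4).congr_of_eventuallyEq ?_
        filter_upwards [lt_mem_nhds hy0] with z hz' using hg.link z hz'
      rw [h5.deriv]
      have h6 : y * |derivWithin gh (Ici 0) (1 / y ^ 2) * (-2 / y ^ 3)| =
          |derivWithin gh (Ici 0) (1 / y ^ 2)| * (2 / y ^ 2) := by
        rw [abs_mul, abs_div, abs_neg, abs_of_pos (two_pos : (0 : ℝ) < 2),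
          abs_of_pos (pow_pos hy0 3)]
        field_simp
      rw [h6]
      have h7 : 2 / y ^ 2 ≤ 2 := by
        rw [div_le_iff₀ (by positivity)]
        have := one_le_pow₀ (n := 2) h
        linarith
      have h8 : |derivWithin gh (Ici 0) (1 / y ^ 2)| * (2 / y ^ 2) ≤ B4 * 2 :=
        mul_le_mul h2 h7 (by positivity) hB4
      linarith

/-- `F_0 = g`, `F_{j+1} = -j F_j - (y/2) F_j'` -/
def Fin_ (g : ℝ → ℝ) : ℕ → ℝ → ℝ
  | 0 => g
  | j + 1 => fun y => -(j : ℝ) * Fin_ g j y - y / 2 * deriv (Fin_ g j) y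

theorem Fin_smooth (hg : ContDiff ℝ (⊤ : ℕ∞) g) (j : ℕ) : ContDiff ℝ (⊤ : ℕ∞) (Fin_ g j) := by
  induction j with
  | zero => exact hg
  | succ j ih =>
    have h1 : ContDiff ℝ (⊤ : ℕ∞) (deriv (Fin_ g j)) := (contDiff_infty_iff_deriv.1 ih).2
    unfold Fin_
    exact (contDiff_const.mul ih).sub ((contDiff_id.div_const 2).mul h1)

theorem hasDerivAt_div_sqrt (x : ℝ) {s : ℝ} (hs : 0 < s) :
    HasDerivAt (fun r => x / √r) (-(x / √s) / (2 * s)) s := by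
  have h1 := ((Real.hasDerivAt_sqrt hs.ne').inv (Real.sqrt_pos.2 hs).ne').const_mul x
  have e : (fun r => x / √r) = fun r => x * (√r)⁻¹ := by
    funext r; rw [div_eq_mul_inv]
  rw [e]
  refine h1.congr_deriv ?_
  have h2 : √s ^ 2 = s := Real.sq_sqrt hs.le
  have h3 : √s ≠ 0 := (Real.sqrt_pos.2 hs).ne'
  rw [h2]
  field_simp

theorem inner_iter (hg : ContDiff ℝ (⊤ : ℕ∞) g) (x : ℝ) (j : ℕ) {s : ℝ} (hs : 0 < s) :
    iteratedDeriv j (fun r => g (x / √r)) s = s⁻¹ ^ j * Fin_ g j (x / √s) := by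
  refine iteratedDeriv_chain (U := Ioi 0) isOpen_Ioi (F := fun j s => s⁻¹ ^ j * Fin_ g j (x / √s))
    ?_ ?_ j s hs
  · intro r _
    simp [Fin_]
  · intro j r hr
    have hr : 0 < r := hr
    have h1 : HasDerivAt (Fin_ g j) (deriv (Fin_ g j) (x / √r)) (x / √r) :=
      ((Fin_smooth hg j).differentiable (by simp) _).hasDerivAt
    have h2 := h1.comp r (hasDerivAt_div_sqrt x hr)
    have h3 := ((hasDerivAt_inv hr.ne').pow j).mul h2
    refine h3.congr_deriv ?_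
    simp only [Fin_, Function.comp, Pi.pow_apply]
    rcases j with _ | j
    · simp
      field_simp
    · rw [Nat.add_sub_cancel]
      push_cast
      have hr' := hr.ne'
      have a1 : (r ^ 2)⁻¹ = r⁻¹ ^ 2 := (inv_pow r 2).symm
      have a2 : -(x / √r) / (2 * r) = -(x / √r) / 2 * r⁻¹ := by
        rw [div_mul_eq_div_div, div_eq_mul_inv _ r]
      rw [a1, a2]
      ring

/-- derivatives of `gh (r / x²)` -/
theorem outer_iter (hgh : ContDiffOn ℝ (⊤ : ℕ∞) gh (Ici 0)) {x : ℝ} (hx : 0 < x) (j : ℕ) {s : ℝ}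
    (hs : 0 < s) : iteratedDeriv j (fun r => gh (r / x ^ 2)) s =
      (x ^ 2)⁻¹ ^ j * iteratedDerivWithin j gh (Ici 0) (s / x ^ 2) := by
  refine iteratedDeriv_chain (U := Ioi 0) isOpen_Ioi
    (F := fun j s => (x ^ 2)⁻¹ ^ j * iteratedDerivWithin j gh (Ici 0) (s / x ^ 2)) ?_ ?_ j s hs
  · intro r _
    simp
  · intro j r hr
    have hr : 0 < r := hr
    have hz : 0 < r / x ^ 2 := by positivity
    have hud : UniqueDiffOn ℝ (Ici (0 : ℝ)) := uniqueDiffOn_Ici 0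
    have h1 : HasDerivAt (iteratedDerivWithin j gh (Ici 0))
        (iteratedDerivWithin (j + 1) gh (Ici 0) (r / x ^ 2)) (r / x ^ 2) := by
      rw [iteratedDerivWithin_succ]
      exact ((hgh.differentiableOn_iteratedDerivWithin (m := j)
        (WithTop.coe_lt_coe.2 (ENat.natCast_lt_top j)) hud
        (r / x ^ 2) hz.le).hasDerivWithinAt).hasDerivAt (Ici_mem_nhds hz)
    have h2 : HasDerivAt (fun r : ℝ => r / x ^ 2) ((x ^ 2)⁻¹) r := by
      have := (hasDerivAt_id r).div_const (x ^ 2)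
      simpa using this
    have h3 := (h1.comp r h2).const_mul ((x ^ 2)⁻¹ ^ j)
    refine h3.congr_deriv ?_
    rw [pow_succ]
    ring

theorem inner_dt_bd (hg : Soliton c A g gh) (J : ℕ) : ∃ C : ℝ, ∀ j ≤ J, ∀ s : ℝ, 0 < s →
    ∀ x : ℝ, 0 ≤ x → (x ^ 2 + s) ^ j * |iteratedDeriv j (fun r => g (x / √r)) s| ≤ C := by
  have hsub : Icc (0 : ℝ) 1 ⊆ Ici 0 := fun y hy => hy.1
  have hud : UniqueDiffOn ℝ (Ici (0 : ℝ)) := uniqueDiffOn_Ici 0
  have key : ∀ j : ℕ, ∃ C : ℝ, 0 ≤ C ∧ ∀ s : ℝ, 0 < s →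
      ∀ x : ℝ, 0 ≤ x → (x ^ 2 + s) ^ j * |iteratedDeriv j (fun r => g (x / √r)) s| ≤ C := by
    intro j
    obtain ⟨C1, hC1, hC1'⟩ := bdd_Icc (Fin_smooth hg.smooth j).continuous.continuousOn
    obtain ⟨C2, hC2, hC2'⟩ := bdd_Icc
      ((hg.smooth_inf.continuousOn_iteratedDerivWithin (m := j) (by exact_mod_cast le_top)
        hud).mono hsub)
    refine ⟨2 ^ j * (C1 + C2), by positivity, fun s hs x hx => ?_⟩
    rcases le_total (x ^ 2) s with h | h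
    · rw [inner_iter hg.smooth x j hs]
      have hy : x / √s ∈ Icc (0 : ℝ) 1 := by
        refine ⟨by positivity, ?_⟩
        rw [div_le_one (Real.sqrt_pos.2 hs)]
        exact Real.le_sqrt_of_sq_le h
      have h1 := hC1' _ hy
      rw [abs_mul, abs_of_nonneg (by positivity : 0 ≤ s⁻¹ ^ j), ← mul_assoc, ← mul_pow]
      have h2 : ((x ^ 2 + s) * s⁻¹) ^ j ≤ 2 ^ j := by
        apply pow_le_pow_left₀ (by positivity)
        rw [← div_eq_mul_inv, div_le_iff₀ hs]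
        linarith
      calc _ ≤ 2 ^ j * C1 := mul_le_mul h2 h1 (abs_nonneg _) (by positivity)
        _ ≤ _ := by
          apply mul_le_mul_of_nonneg_left _ (by positivity)
          linarith
    · have hx0 : 0 < x := by
        rcases hx.eq_or_lt with h' | h'
        · exfalso; rw [← h'] at h; norm_num at h; linarith
        · exact h'
      have e : iteratedDeriv j (fun r => g (x / √r)) s =
          iteratedDeriv j (fun r => gh (r / x ^ 2)) s := by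
        have : (fun r => g (x / √r)) =ᶠ[𝓝 s] fun r => gh (r / x ^ 2) := by
          filter_upwards [lt_mem_nhds hs] with r hr
          have hr' : 0 < √r := Real.sqrt_pos.2 hr
          rw [hg.link (x / √r) (by positivity)]
          congr 1
          rw [div_pow, Real.sq_sqrt hr.le, one_div_div]
        exact this.iteratedDeriv_eq j
      rw [e, outer_iter hg.smooth_inf hx0 j hs]
      have hz : s / x ^ 2 ∈ Icc (0 : ℝ) 1 := by
        refine ⟨by positivity, ?_⟩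
        rw [div_le_one (by positivity)]
        exact h
      have h1 := hC2' _ hz
      rw [abs_mul, abs_of_nonneg (by positivity : 0 ≤ (x ^ 2)⁻¹ ^ j), ← mul_assoc, ← mul_pow]
      have h2 : ((x ^ 2 + s) * (x ^ 2)⁻¹) ^ j ≤ 2 ^ j := by
        apply pow_le_pow_left₀ (by positivity)
        rw [← div_eq_mul_inv, div_le_iff₀ (by positivity)]
        linarith
      calc _ ≤ 2 ^ j * C2 := mul_le_mul h2 h1 (abs_nonneg _) (by positivity)
        _ ≤ _ := by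
          apply mul_le_mul_of_nonneg_left _ (by positivity)
          linarith
  choose C hC hC' using key
  refine ⟨∑ j ∈ Finset.range (J + 1), C j, fun j hj s hs x hx => (hC' j s hs x hx).trans ?_⟩
  exact Finset.single_le_sum (f := C) (fun i _ => hC i) (Finset.mem_range.2 (by omega))

end Crest.Agent.R213.D
end
private theorem rz_9fc79351d8 : type_of% @_root_.Crest.Agent.R213.D.Fin_.eq_def := @_root_.Crest.Agent.R213.D.Fin_.eq_def -- L139
private theorem rz_81b0640fd8 : type_of% @_root_.Crest.Agent.R213.D.Fin_.eq_1 := @_root_.Crest.Agent.R213.D.Fin_.eq_1 -- L139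
end

-- ▼ part R213/D/GenS
section

/-!
# Row 213, D3a: generic facts about `SmIK`, `dxK`, `ds`, `Sc`, `Res` (helper35)
-/

set_option autoImplicit false
set_option linter.unusedVariables false

open Set MeasureTheory Filter Topology
open scoped ContDiff

noncomputable section

namespace Crest.Agent.R213.D

variable {I K : Set ℝ} {u v : ℝ → ℝ → ℝ}

/-! ### slices -/

lemma SmIK.hasFDeriv (hu : SmIK I K u) {s x : ℝ} (hs : s ∈ I) (hx : x ∈ K) :
    HasFDerivWithinAt (fun p : ℝ × ℝ => u p.1 p.2)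
      (fderivWithin ℝ (fun p : ℝ × ℝ => u p.1 p.2) (I ×ˢ K) (s, x)) (I ×ˢ K) (s, x) :=
  ((ContDiffOn.differentiableOn hu (by simp)) (s, x) ⟨hs, hx⟩).hasFDerivWithinAt

lemma slice_x {G : ℝ × ℝ → ℝ} {G' : ℝ × ℝ →L[ℝ] ℝ} {s x : ℝ} (hs : s ∈ I)
    (h : HasFDerivWithinAt G G' (I ×ˢ K) (s, x)) :
    HasDerivWithinAt (fun y => G (s, y)) (G' (0, 1)) K x := by
  have hm : MapsTo (fun y : ℝ => (s, y)) K (I ×ˢ K) := fun y hy => ⟨hs, hy⟩
  exact J0b.hasDerivWithinAt_slice (γ := fun y => (s, y)) (v := (0, 1))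
    ((hasDerivWithinAt_const x _ s).prodMk (hasDerivWithinAt_id x _)) rfl hm h






/-! ### smoothness of derivatives -/

theorem SmIK.dxK' (hI' : UniqueDiffOn ℝ I) (hK : UniqueDiffOn ℝ K) (hu : SmIK I K u) :
    SmIK I K (D.dxK K u) := by
  have h1 : ContDiffOn ℝ ∞ (fun p => fderivWithin ℝ (fun p : ℝ × ℝ => u p.1 p.2)
      (I ×ˢ K) p (0, 1)) (I ×ˢ K) :=
    (ContDiffOn.fderivWithin hu (m := ∞) (hI'.prod hK) (by simp)).clm_apply contDiffOn_const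
  refine ContDiffOn.congr h1 ?_
  rintro ⟨s, x⟩ ⟨hs, hx⟩
  exact (slice_x hs (hu.hasFDeriv hs hx)).derivWithin (hK x hx)

theorem SmIK.dxK {I : Set ℝ} {a b : ℝ} (hI : Convex ℝ I) (hI' : UniqueDiffOn ℝ I) (hab : a < b)
    {u : ℝ → ℝ → ℝ} (hu : SmIK I (Icc a b) u) : SmIK I (Icc a b) (dxK (Icc a b) u) :=
  hu.dxK' hI' (uniqueDiffOn_Icc hab)



/-! ### algebra of `SmIK` -/

lemma SmIK.mono {I' K' : Set ℝ} (hu : SmIK I K u) (hI : I' ⊆ I) (hK : K' ⊆ K) : SmIK I' K' u :=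
  ContDiffOn.mono hu (prod_mono hI hK)
lemma SmIK.congr (hu : SmIK I K u) (h : ∀ s ∈ I, ∀ x ∈ K, v s x = u s x) : SmIK I K v :=
  ContDiffOn.congr hu (fun p hp => h p.1 hp.1 p.2 hp.2)
lemma SmIK.add (hu : SmIK I K u) (hv : SmIK I K v) : SmIK I K (fun s x => u s x + v s x) :=
  ContDiffOn.add hu hv
lemma SmIK.sub (hu : SmIK I K u) (hv : SmIK I K v) : SmIK I K (fun s x => u s x - v s x) :=
  ContDiffOn.sub hu hv
lemma SmIK.mul (hu : SmIK I K u) (hv : SmIK I K v) : SmIK I K (fun s x => u s x * v s x) :=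
  ContDiffOn.mul hu hv
lemma SmIK.div (hu : SmIK I K u) (hv : SmIK I K v) (h : ∀ s ∈ I, ∀ x ∈ K, v s x ≠ 0) :
    SmIK I K (fun s x => u s x / v s x) :=
  ContDiffOn.div hu hv (fun p hp => h p.1 hp.1 p.2 hp.2)
lemma SmIK.const (c : ℝ) : SmIK I K (fun _ _ => c) := contDiffOn_const
lemma SmIK.const_mul (c : ℝ) (hu : SmIK I K u) : SmIK I K (fun s x => c * u s x) :=
  (SmIK.const c).mul hu
lemma SmIK.of_contDiff (hu : ContDiff ℝ ∞ (fun p : ℝ × ℝ => u p.1 p.2)) : SmIK I K u :=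
  hu.contDiffOn





/-! ### the integrated form of the curvature -/


/-! ### locality -/





/-! ### version 2: two-sided operators on open sets -/

theorem SmU.sm {U : Set (ℝ × ℝ)} {s1 L : ℝ} {u : ℝ → ℝ → ℝ} (hu : SmU U u)
    (hs : ∀ s ∈ Ioo 0 s1, ∀ x ∈ Icc 0 L, (s, x) ∈ U) : Sm (Ioo 0 s1) L u :=
  ContDiffOn.mono hu (fun p hp => hs p.1 hp.1 p.2 hp.2)

theorem SmU.dx_eq {U : Set (ℝ × ℝ)} (hU : IsOpen U) {L : ℝ} (hL : 0 < L) {u : ℝ → ℝ → ℝ}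
    (hu : SmU U u) {s x : ℝ} (hx : x ∈ Icc 0 L) (hp : (s, x) ∈ U) : dx L u s x = D.dX u s x :=
  (hu.hdX hU hp).hasDerivWithinAt.derivWithin (uniqueDiffOn_Icc hL x hx)

theorem SmU.dx_dx_eq {U : Set (ℝ × ℝ)} (hU : IsOpen U) {L : ℝ} (hL : 0 < L) {u : ℝ → ℝ → ℝ}
    (hu : SmU U u) {s : ℝ} (hs : ∀ x ∈ Icc 0 L, (s, x) ∈ U) {x : ℝ} (hx : x ∈ Icc 0 L) :
    dx L (dx L u) s x = D.dX (D.dX u) s x := by
  have h1 : dx L (dx L u) s x = dx L (D.dX u) s x :=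
    derivWithin_congr (fun y hy => SmU.dx_eq hU hL hu hy (hs y hy))
      (SmU.dx_eq hU hL hu hx (hs x hx))
  rw [h1]
  exact SmU.dx_eq hU hL (hu.dX hU) hx (hs x hx)

theorem Kint_Sop {U : Set (ℝ × ℝ)} (hU : IsOpen U) {w : ℝ → ℝ → ℝ} (hw : SmU U w)
    (hP : ∀ p ∈ U, 0 < Pw w p.1 p.2) {s : ℝ} (hs : ∀ x ∈ Icc (0 : ℝ) 1, (s, x) ∈ U) :
    ∀ x ∈ Icc (0 : ℝ) 1,
      x ^ 10 - x ^ 9 * (x * (1 - x) / Pw w s x) = Kint (Sop w s) x := by
  have hP' : ∀ p ∈ U, Pw w p.1 p.2 ≠ 0 := fun p hp => (hP p hp).ne'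
  have hψ := hw.psw hP'
  have hψ' := hψ.dX hU
  have hSc := hw.Sop hU hP'
  have hScc : ContinuousOn (Sop w s) (Icc 0 1) := by
    have h1 : ContinuousOn (fun p : ℝ × ℝ => Sop w p.1 p.2) U := ContDiffOn.continuousOn hSc
    exact h1.comp (f := fun x => (s, x)) (by fun_prop) (fun x hx => hs x hx)
  have key := eq_Kint_of_deriv (L := 1) one_pos hScc
    (P := fun x => x ^ 10 * (1 - psw w s x))
    (P' := fun x => 10 * x ^ 9 * (1 - psw w s x) - x ^ 10 * dX (psw w) s x)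
    (by simp) (by simp) ?_ ?_
  · intro x hx
    rw [← key x hx]
    simp only [psw]
    ring
  · intro x hx
    have h1 := (hψ.hdX hU (hs x hx)).hasDerivWithinAt (s := Icc 0 1)
    have h2 : HasDerivWithinAt (fun x : ℝ => x ^ 10) (10 * x ^ 9) (Icc 0 1) x := by
      simpa using (hasDerivAt_pow 10 x).hasDerivWithinAt
    have h3 := h2.mul (h1.const_sub 1)
    refine h3.congr_deriv ?_
    ring
  · intro x hx
    have h1 := (hψ.hdX hU (hs x hx)).hasDerivWithinAt (s := Icc 0 1)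
    have h1' := (hψ'.hdX hU (hs x hx)).hasDerivWithinAt (s := Icc 0 1)
    have h2 : HasDerivWithinAt (fun x : ℝ => x ^ 10) (10 * x ^ 9) (Icc 0 1) x := by
      simpa using (hasDerivAt_pow 10 x).hasDerivWithinAt
    have h4 : HasDerivWithinAt (fun x : ℝ => 10 * x ^ 9) (10 * (9 * x ^ 8)) (Icc 0 1) x := by
      simpa using ((hasDerivAt_pow 9 x).const_mul 10).hasDerivWithinAt
    have h3 := (h4.mul (h1.const_sub 1)).sub (h2.mul h1')
    refine h3.congr_deriv ?_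
    have hp := hP' _ (hs x hx)
    have e : 1 - psw w s x = x * qw w s x := by
      simp only [psw, qw]
      field_simp
      simp only [Pw]
      ring
    rw [e]
    simp only [Sop]
    ring

end Crest.Agent.R213.D
end
end

-- ▼ part R213/D/ResBd
section

/-!
# Row 213, part D, block D3b: the error `E` from the residual (double primitive), with bounds
-/

set_option autoImplicit false

open Set MeasureTheory Filter Topology

noncomputable section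

namespace Crest.Agent.R213.D

open Crest.Agent.R213

namespace ResBd




theorem dt_iter_Px {t : Set ℝ} (ht : Convex ℝ t) (ht' : IsOpen t) {r : ℝ → ℝ → ℝ}
    (hr : Sm t 1 r) (j : ℕ) : ∀ s ∈ t, ∀ x ∈ Icc (0 : ℝ) 1,
      (dt^[j] (J310.Px r)) s x = J310.Px (dt^[j] r) s x := by
  induction j generalizing r with
  | zero => intro s hs x hx; rfl
  | succ j ih =>
    intro s hs x hx
    rw [Function.iterate_succ_apply]
    have h1 : (dt^[j] (dt (J310.Px r))) s x = (dt^[j] (J310.Px (dt r))) s x :=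
      dt_iter_congr ht' (fun ρ hρ => J310.dt_Px ht ht' one_pos hr hρ hx) hs j
    rw [h1, ih (hr.dt ht' one_pos) s hs x hx]
    rfl

theorem Px_abs_le {r : ℝ → ℝ → ℝ} {s x C : ℝ} (hx : x ∈ Icc (0 : ℝ) 1)
    (h : ∀ y ∈ Icc (0 : ℝ) 1, |r s y| ≤ C) : |J310.Px r s x| ≤ C := by
  have hC : 0 ≤ C := (abs_nonneg _).trans (h x hx)
  have h1 : ‖∫ ξ in (0 : ℝ)..x, r s ξ‖ ≤ C * |x - 0| := by
    apply intervalIntegral.norm_integral_le_of_norm_le_const
    intro y hy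
    rw [uIoc_of_le hx.1] at hy
    exact h y ⟨hy.1.le, hy.2.trans hx.2⟩
  rw [sub_zero, abs_of_nonneg hx.1] at h1
  refine (show |J310.Px r s x| ≤ C * x from h1).trans ?_
  calc C * x ≤ C * 1 := mul_le_mul_of_nonneg_left hx.2 hC
    _ = C := mul_one C

end ResBd


end Crest.Agent.R213.D
end
end

-- ▼ part R213/D/ResBd2
section

/-!
# Row 213, part D, block D3b (second form): the error `E` from the residual, bounds as hypotheses
-/

set_option autoImplicit false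

open Set MeasureTheory Filter Topology

noncomputable section

namespace Crest.Agent.R213.D

open Crest.Agent.R213 ResBd

theorem E_of_residual_bd {s1 C : ℝ} {M J : ℕ} {r : ℝ → ℝ → ℝ} (hr : Sm (Ioo 0 s1) 1 r)
    (hr0 : ∀ s ∈ Ioo 0 s1, ∀ x ∈ Icc (0 : ℝ) (1 / 8), r s x = 0)
    (hb : ∀ j ≤ J, ∀ s ∈ Ioo 0 s1, ∀ x ∈ Icc (0 : ℝ) 1, |(dt^[j] r) s x| ≤ C * s ^ (M - j)) :
    ∃ E : ℝ → ℝ → ℝ, Sm (Ioo 0 s1) 1 E ∧
      (∀ s ∈ Ioo 0 s1, ∀ x ∈ Icc (0 : ℝ) 1, dx 1 (dx 1 E) s x = r s x) ∧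
      (∀ s ∈ Ioo 0 s1, ∀ x ∈ Icc (0 : ℝ) (1 / 8), E s x = 0) ∧
      (∀ j ≤ J, ∀ s ∈ Ioo 0 s1, ∀ x ∈ Icc (0 : ℝ) 1, |(dt^[j] E) s x| ≤ C * s ^ (M - j)) := by
  have hc : Convex ℝ (Ioo 0 s1) := convex_Ioo 0 s1
  have ho : IsOpen (Ioo 0 s1) := isOpen_Ioo
  have hu : UniqueDiffOn ℝ (Ioo 0 s1) := ho.uniqueDiffOn
  have hP : Sm (Ioo 0 s1) 1 (J310.Px r) := J310.sm_Px hc hu one_pos hr
  have hPP : Sm (Ioo 0 s1) 1 (J310.Px (J310.Px r)) := J310.sm_Px hc hu one_pos hP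
  refine ⟨J310.Px (J310.Px r), hPP, ?_, ?_, ?_⟩
  · intro s hs x hx
    rw [dx_congr (v := dx 1 (J310.Px (J310.Px r))) (u := J310.Px r)
      (fun y hy => J310.dx_Px one_pos hP hs hy) hx]
    exact J310.dx_Px one_pos hr hs hx
  · intro s hs x hx
    have h1 : ∀ y ∈ Icc (0 : ℝ) (1 / 8), J310.Px r s y = 0 := by
      intro y hy
      apply intervalIntegral.integral_zero_ae
      refine Filter.Eventually.of_forall fun z hz => ?_
      rw [uIoc_of_le hy.1] at hz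
      exact hr0 s hs z ⟨hz.1.le, hz.2.trans hy.2⟩
    apply intervalIntegral.integral_zero_ae
    refine Filter.Eventually.of_forall fun z hz => ?_
    rw [uIoc_of_le hx.1] at hz
    exact h1 z ⟨hz.1.le, hz.2.trans hx.2⟩
  · intro j hj s hs x hx
    rw [dt_iter_Px hc ho hP j s hs x hx]
    refine Px_abs_le hx ?_
    intro y hy
    rw [dt_iter_Px hc ho hr j s hs y hy]
    exact Px_abs_le hy (fun z hz => hb j hj s hs z hz)

end Crest.Agent.R213.D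
end
end

-- ▼ part R213/D/UnitBg
section

/-!
# Row 213, part D3: the background in unit scale (helper684)
-/

set_option autoImplicit false

open Set MeasureTheory Filter Topology

noncomputable section

namespace Crest.Agent.R213.D

namespace UB

variable {c A : ℝ} {g gh : ℝ → ℝ}

/-! ### iterated time derivatives -/

lemma dt_iter_eq (u : ℝ → ℝ → ℝ) (j : ℕ) :
    ∀ t x : ℝ, (dt^[j] u) t x = iteratedDeriv j (fun r => u r x) t := by
  induction j with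
  | zero => intro t x; simp
  | succ j ih =>
    intro t x
    rw [Function.iterate_succ_apply', iteratedDeriv_succ]
    have : (fun r => (dt^[j] u) r x) = iteratedDeriv j (fun r => u r x) := funext fun r => ih r x
    show deriv (fun r => (dt^[j] u) r x) t = _
    rw [this]

lemma iter_congr_pos {f h : ℝ → ℝ} {s1 : ℝ} (hfh : ∀ r ∈ Ioo 0 s1, f r = h r) (j : ℕ) :
    ∀ s ∈ Ioo 0 s1, iteratedDeriv j f s = iteratedDeriv j h s := by
  intro s hs
  have : f =ᶠ[𝓝 s] h := by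
    filter_upwards [Ioo_mem_nhds hs.1 hs.2] with r hr using hfh r hr
  exact this.iteratedDeriv_eq j

/-! ### the cut-off -/

/-- `1` for `x ≤ 3/16`, `0` for `x ≥ 1/4`. -/
def chi (x : ℝ) : ℝ := 1 - Real.smoothTransition (16 * (x - 3 / 16))

lemma chi_smooth : ContDiff ℝ (⊤ : ℕ∞) chi := by
  unfold chi
  exact contDiff_const.sub (Real.smoothTransition.contDiff.comp
    (contDiff_const.mul (contDiff_id.sub contDiff_const)))

lemma chi_one {x : ℝ} (h : x ≤ 3 / 16) : chi x = 1 := by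
  unfold chi; rw [Real.smoothTransition.zero_of_nonpos (by linarith)]; ring

lemma chi_zero {x : ℝ} (h : 1 / 4 ≤ x) : chi x = 0 := by
  unfold chi; rw [Real.smoothTransition.one_of_one_le (by linarith)]; ring

lemma chi_mem (x : ℝ) : chi x ∈ Icc (0 : ℝ) 1 := by
  unfold chi
  have h1 := Real.smoothTransition.nonneg (16 * (x - 3 / 16))
  have h2 := Real.smoothTransition.le_one (16 * (x - 3 / 16))
  exact ⟨by linarith, by linarith⟩

/-! ### the outer form of the glued function, smooth up to `s = 0` -/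

/-- glued function in the form valid for `s ≥ 0`, `x > 0` -/
def hW (gh : ℝ → ℝ) (a : ℕ → ℝ → ℝ) (M : ℕ) : ℝ → ℝ → ℝ := fun s x =>
  chi x * winh gh s x + (1 - chi x) * wM a M s x

lemma hW_eq (hg : Soliton c A g gh) (a : ℕ → ℝ → ℝ) (M : ℕ) {s x : ℝ} (hs : 0 < s) (hx : 0 < x) :
    hW gh a M s x = gW g chi a M s x := by
  unfold hW gW
  rw [win_eq_winh hg hs hx]

lemma smIK_chi_winh (hg : Soliton c A g gh) :
    SmIK (Ici 0) (Icc (1 / 8) 1) (fun s x => chi x * winh gh s x) := by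
  rintro ⟨s, x⟩ ⟨hs, hx⟩
  rcases lt_or_ge x (1 / 2) with h | h
  · have h1 : SmIK (Ici 0) (Icc (1 / 8) (1 / 2)) (fun s x => chi x * winh gh s x) :=
      SmIK.mul (SmIK.of_contDiff (u := fun _ x => chi x) (chi_smooth.comp contDiff_snd))
        (smIK_winh hg (by norm_num) (by norm_num))
    have h2 := h1 (s, x) ⟨hs, hx.1, h.le⟩
    refine h2.mono_of_mem_nhdsWithin ?_
    rw [nhdsWithin_prod_eq]
    refine prod_mem_prod self_mem_nhdsWithin ?_
    have : Icc (1 / 8 : ℝ) (1 / 2) ⊇ Icc (1 / 8) 1 ∩ Iio (1 / 2) := by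
      rintro y ⟨hy1, hy2⟩; exact ⟨hy1.1, le_of_lt hy2⟩
    exact mem_of_superset (inter_mem self_mem_nhdsWithin
      (mem_nhdsWithin_of_mem_nhds (Iio_mem_nhds h))) this
  · have h1 : (fun p : ℝ × ℝ => chi p.2 * winh gh p.1 p.2) =ᶠ[𝓝 (s, x)] fun _ => 0 := by
      have : ∀ᶠ p : ℝ × ℝ in 𝓝 (s, x), 1 / 4 < p.2 := by
        have hc : Continuous fun p : ℝ × ℝ => p.2 := continuous_snd
        exact hc.continuousAt.eventually (Ioi_mem_nhds (by show (1 / 4 : ℝ) < x; linarith))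
      filter_upwards [this] with p hp
      rw [chi_zero hp.le, zero_mul]
    exact (contDiffAt_const.congr_of_eventuallyEq h1).contDiffWithinAt

lemma wM_smIK {a : ℕ → ℝ → ℝ} (ha : FormalSol c a) (M : ℕ) (I K : Set ℝ) : SmIK I K (wM a M) :=
  ContDiffOn.mono (wM_sm ha.sm M) (subset_univ _)

lemma smIK_hW (hg : Soliton c A g gh) {a : ℕ → ℝ → ℝ} (ha : FormalSol c a) (M : ℕ) :
    SmIK (Ici 0) (Icc (1 / 8) 1) (hW gh a M) := by
  have h1 := smIK_chi_winh hg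
  have h2 : SmIK (Ici 0) (Icc (1 / 8) 1) (fun s x => (1 - chi x) * wM a M s x) :=
    SmIK.mul (SmIK.of_contDiff (u := fun _ x => 1 - chi x)
      ((contDiff_const.sub chi_smooth).comp contDiff_snd)) (wM_smIK ha M _ _)
  exact h1.add h2

lemma PP_winh (hg : Soliton c A g gh) {s x : ℝ} (hs : 0 ≤ s) (hx : 0 < x) (hx1 : x < 1) :
    0 < PP (winh gh) s x := by
  have h1 : 0 < gh (s / x ^ 2) := gh_pos hg (by positivity)
  have h2 : 0 < 1 - x := by linarith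
  have : PP (winh gh) s x = (1 - x) / gh (s / x ^ 2) := by
    unfold PP winh
    field_simp
    ring
  rw [this]; positivity

lemma PP_hW_pos (hg : Soliton c A g gh) {a : ℕ → ℝ → ℝ} {M : ℕ} {s x : ℝ} (hs : 0 ≤ s)
    (hx : x ∈ Icc (1 / 8 : ℝ) 1) (hp : 0 < Pw (wM a M) s x) : 0 < PP (hW gh a M) s x := by
  have e : PP (hW gh a M) s x = chi x * PP (winh gh) s x + (1 - chi x) * Pw (wM a M) s x := by
    unfold PP hW Pw; ring
  rw [e]
  have h1 := (chi_mem x).1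
  have h2 := (chi_mem x).2
  rcases lt_or_ge x (1 / 4) with h | h
  · have h3 := PP_winh hg hs (by linarith [hx.1]) (by linarith : x < 1)
    rcases h1.eq_or_lt with h4 | h4
    · rw [← h4]; simpa using hp
    · have : 0 ≤ (1 - chi x) * Pw (wM a M) s x := mul_nonneg (by linarith) hp.le
      have h5 := mul_pos h4 h3
      linarith
  · rw [chi_zero h]; simpa using hp

lemma hW_sub_OM {a : ℕ → ℝ → ℝ} (ha : FormalSol c a) {M : ℕ} (hM : 9 ≤ M) (I : Set ℝ) :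
    OM I (Icc (1 / 8) 1) 10 (fun s x => hW gh a M s x - hW gh a 9 s x) := by
  refine ⟨fun s x => (1 - chi x) * ∑ j ∈ Finset.Ico 10 (M + 1), s ^ (j - 10) * a j x, ?_, ?_⟩
  · refine SmIK.mul (SmIK.of_contDiff (u := fun _ x => 1 - chi x)
      ((contDiff_const.sub chi_smooth).comp contDiff_snd)) ?_
    exact ContDiffOn.sum fun j _ => ((contDiff_fst.pow _).mul
      ((ha.sm j).comp contDiff_snd)).contDiffOn
  · intro s _ x _
    have h1 : wM a M s x - wM a 9 s x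
        = ∑ j ∈ Finset.Ico 10 (M + 1), s ^ j * a j x := by
      unfold wM
      rw [Finset.sum_Ico_eq_sub _ (by omega)]
    have h2 : ∑ j ∈ Finset.Ico 10 (M + 1), s ^ j * a j x
        = s ^ 10 * ∑ j ∈ Finset.Ico 10 (M + 1), s ^ (j - 10) * a j x := by
      rw [Finset.mul_sum]
      refine Finset.sum_congr rfl fun j hj => ?_
      have : 10 ≤ j := (Finset.mem_Ico.1 hj).1
      rw [← mul_assoc, ← pow_add]
      congr 2; omega
    have e : hW gh a M s x - hW gh a 9 s x = (1 - chi x) * (wM a M s x - wM a 9 s x) := by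
      unfold hW; ring
    show hW gh a M s x - hW gh a 9 s x
      = s ^ 10 * ((1 - chi x) * ∑ j ∈ Finset.Ico 10 (M + 1), s ^ (j - 10) * a j x)
    rw [e, h1, h2]; ring

end UB

open UB in
theorem unit_bg {c A : ℝ} {g gh : ℝ → ℝ} (hg : Soliton c A g gh) :
    ∃ c0 C0 : ℝ, Prof c0 C0 g ∧ ∀ M : ℕ, 9 ≤ M → ∃ s1 C : ℝ, 0 < s1 ∧ s1 ≤ 1 ∧
      ∃ φ m w S E : ℝ → ℝ → ℝ,
      Sm (Ioo 0 s1) 1 m ∧ Sm (Ioo 0 s1) 1 w ∧ Sm (Ioo 0 s1) 1 S ∧ Sm (Ioo 0 s1) 1 E ∧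
      (∀ s ∈ Ioo 0 s1, ∀ x ∈ Icc (0 : ℝ) 1, φ s x = x * (1 - x) * m s x) ∧
      (∀ s ∈ Ioo 0 s1, ∀ x ∈ Icc (0 : ℝ) 1, c0 ≤ m s x) ∧
      (∀ s ∈ Ioo 0 s1, ∀ x ∈ Icc (0 : ℝ) 1, m s x ≤ C0) ∧
      (∀ s ∈ Ioo 0 s1, ∀ x ∈ Icc (0 : ℝ) 1, |dx 1 φ s x| ≤ C0) ∧
      (∀ j ≤ 9, ∀ s ∈ Ioo 0 s1, ∀ x ∈ Icc (0 : ℝ) 1,
        (x ^ 2 + s) ^ j * |(dt^[j] m) s x| ≤ C0) ∧
      (∀ s ∈ Ioo 0 s1, ∀ x ∈ Icc (0 : ℝ) (1 / 8), φ s x = x * g (x / √s)) ∧
      (∀ s ∈ Ioo 0 s1, ∀ x ∈ Ioo (0 : ℝ) 1, 1 / φ s x = 1 / x + 1 / (1 - x) + w s x) ∧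
      (∀ s ∈ Ioo 0 s1, ∀ x ∈ Icc (0 : ℝ) 1, x ^ 10 - x ^ 9 * φ s x = Kint (S s) x) ∧
      (∀ s ∈ Ioo 0 s1, ∀ x ∈ Icc (0 : ℝ) 1,
        dx 1 (dx 1 E) s x = dt w s x - dx 1 (dx 1 S) s x) ∧
      (∀ s ∈ Ioo 0 s1, S s 0 = 110 * A / √s) ∧
      (∀ s ∈ Ioo 0 s1, ∀ x ∈ Icc (0 : ℝ) (1 / 8), E s x = 0) ∧
      (∀ j ≤ 9, ∀ s ∈ Ioo 0 s1, ∀ x ∈ Icc (0 : ℝ) 1, |(dt^[j] E) s x| ≤ C * s ^ (M - j)) := by
  -- constants of the profile
  obtain ⟨p0, P0, hprof⟩ := prof_exists hg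
  obtain ⟨CI, hCI⟩ := inner_dt_bd hg 9
  obtain ⟨a, ha⟩ := formalSol_exists hg.c_pos
  -- the reference function
  obtain ⟨sr, hsr, cr, hcr, hposr, -⟩ := ha.res 9
  have hPr : ∀ s ∈ Ico 0 sr, ∀ x ∈ Icc (1 / 8 : ℝ) 1, 0 < PP (hW gh a 9) s x := fun s hs x hx =>
    PP_hW_pos hg hs.1 hx (hcr.trans_le (hposr s ⟨by linarith [hs.1], hs.2⟩ x))
  obtain ⟨c1, C1, hc1, hout⟩ := outer_bd hsr
    ((smIK_hW hg ha 9).mono Ico_subset_Ici_self Subset.rfl) hPr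
  set c0 : ℝ := min p0 c1 with hc0
  have hC1 : 0 ≤ C1 := by
    obtain ⟨s3, hs3, -, h1, -⟩ := hout sr (hW gh a 9) hsr
      ((smIK_hW hg ha 9).mono Ico_subset_Ici_self Subset.rfl) (hW_sub_OM ha le_rfl _)
    obtain ⟨h2, h3, h4, h5⟩ := h1 0 ⟨le_rfl, hs3⟩ 1 ⟨by norm_num, le_rfl⟩
    exact (abs_nonneg _).trans h5
  have hP0 : 0 ≤ P0 := (abs_nonneg _).trans (hprof.dG 0 le_rfl)
  have hCI0 : 0 ≤ CI := by
    have := hCI 0 (by norm_num) 1 one_pos 0 le_rfl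
    exact le_trans (by positivity) this
  set C0 : ℝ := 2 * P0 + 2 ^ 9 * C1 + 2 * CI with hC0
  have hC1' : C1 ≤ 2 ^ 9 * C1 := by linarith
  refine ⟨c0, C0, ⟨lt_min hprof.c0_pos hc1, hprof.smooth, fun y hy => (min_le_left _ _).trans
    (hprof.lower y hy), fun y hy => (hprof.upper y hy).trans (by rw [hC0]; nlinarith), fun y hy =>
    (hprof.dG y hy).trans (by rw [hC0]; nlinarith)⟩, ?_⟩
  intro M hM
  -- the glued function
  obtain ⟨sg, hsg, hglue⟩ :=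
    glue_res hg chi_smooth (fun x => chi_one) (fun x => chi_zero) chi_mem ha M
  obtain ⟨hsm, hpos, hwin, hres0, hS0, hresb⟩ := hglue sg hsg le_rfl
  set w : ℝ → ℝ → ℝ := gW g chi a M with hw
  set U := gU g sg with hU
  have hUo : IsOpen U := isOpen_gU hg
  obtain ⟨s3, hs3, -, hb1, hb2⟩ := hout sg (hW gh a M) hsg
    ((smIK_hW hg ha M).mono Ico_subset_Ici_self Subset.rfl) (hW_sub_OM ha hM _)
  set s1 : ℝ := min (min sg s3) 1 with hs1
  have hs1pos : 0 < s1 := lt_min (lt_min hsg hs3) one_pos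
  have hs1g : s1 ≤ sg := (min_le_left _ _).trans (min_le_left _ _)
  have hs13 : s1 ≤ s3 := (min_le_left _ _).trans (min_le_right _ _)
  have hs11 : s1 ≤ 1 := min_le_right _ _
  have hmem : ∀ s ∈ Ioo 0 s1, ∀ x ∈ Icc (0 : ℝ) 1, (s, x) ∈ U := fun s hs x hx =>
    mem_gU hg ⟨hs.1, hs.2.trans_le hs1g⟩ hx
  have hP : ∀ s ∈ Ioo 0 s1, ∀ x ∈ Icc (0 : ℝ) 1, 0 < Pw w s x := fun s hs x hx =>
    hpos _ (hmem s hs x hx)
  have hne : ∀ p ∈ U, Pw w p.1 p.2 ≠ 0 := fun p hp => (hpos p hp).ne'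
  -- the functions
  set m : ℝ → ℝ → ℝ := fun s x => 1 / Pw w s x with hm
  set φ : ℝ → ℝ → ℝ := fun s x => x * (1 - x) * m s x with hφ
  have smm : SmU U m := ((smU_const 1).mul (hsm.Pw.inv hne)).congr fun p _ => by
    simp only [hm, one_div, one_mul]
  have smφ : SmU U φ := (smU_x.mul ((smU_const 1).sub smU_x)).mul smm
  have smS : SmU U (Sop w) := hsm.Sop hUo hne
  have smR : SmU U (resid w) := hsm.resid hUo hne
  -- bounds for the residual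
  have hR9 : ∃ CR : ℝ, ∀ j ≤ 9, ∀ s ∈ Ioo 0 s1, ∀ x ∈ Icc (0 : ℝ) 1,
      |(dt^[j] (resid w)) s x| ≤ CR * s ^ (M - j) := by
    have h1 : ∀ j : ℕ, ∃ C : ℝ, 0 ≤ C ∧ (j ≤ M → ∀ s ∈ Ioo 0 s1, ∀ x ∈ Icc (0 : ℝ) 1,
        |(dt^[j] (resid w)) s x| ≤ C * s ^ (M - j)) := by
      intro j
      by_cases hj : j ≤ M
      · obtain ⟨C, hC⟩ := hresb j hj
        refine ⟨|C|, abs_nonneg _, fun _ s hs x hx => (hC s ⟨hs.1, hs.2.trans_le hs1g⟩ x hx).trans ?_⟩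
        exact mul_le_mul_of_nonneg_right (le_abs_self _) (pow_nonneg hs.1.le _)
      · exact ⟨0, le_rfl, fun h => absurd h hj⟩
    choose CR hCR0 hCR using h1
    refine ⟨∑ j ∈ Finset.range 10, CR j, fun j hj s hs x hx => ?_⟩
    refine (hCR j (hj.trans hM) s hs x hx).trans ?_
    refine mul_le_mul_of_nonneg_right ?_ (pow_nonneg hs.1.le _)
    exact Finset.single_le_sum (f := CR) (fun i _ => hCR0 i) (Finset.mem_range.2 (by omega))
  obtain ⟨CR, hCR⟩ := hR9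
  obtain ⟨E, hE1, hE2, hE3, hE4⟩ := E_of_residual_bd (r := resid w) (J := 9) (M := M)
    (smR.sm hmem) (fun s hs x hx => hres0 s ⟨hs.1, hs.2.trans_le hs1g⟩ x
      ⟨hx.1, by linarith [hx.2]⟩) hCR
  -- inner form
  have hin : ∀ s ∈ Ioo 0 s1, ∀ x ∈ Ico (0 : ℝ) (3 / 16), m s x = g (x / √s) / (1 - x) := by
    intro s hs x hx
    have h1 : w s x = win g s x := hwin (s, x) (hmem s hs x ⟨hx.1, by linarith [hx.2]⟩) hx.2
    have h2 := Pw_win hg (mem_Ug hg hs.1 hx.1 (by linarith [hx.2] : x < 1))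
    have h3 : Pw w s x = (1 - x) / g (x / √s) := by
      rw [← h2]; simp only [Pw, h1]
    simp only [hm, h3]
    rw [one_div_div]
  have hφin : ∀ s ∈ Ioo 0 s1, ∀ x ∈ Ico (0 : ℝ) (3 / 16), φ s x = x * g (x / √s) := by
    intro s hs x hx
    have hx1 : 1 - x ≠ 0 := by linarith [hx.2]
    simp only [hφ]
    rw [hin s hs x hx]
    field_simp
  -- outer form
  have hPout : ∀ s ∈ Ioo 0 s1, ∀ x ∈ Icc (1 / 8 : ℝ) 1, PP (hW gh a M) s x = Pw w s x := by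
    intro s hs x hx
    simp only [PP, Pw]
    rw [hW_eq hg a M hs.1 (by linarith [hx.1])]
  have hg0 : ∀ s x : ℝ, 0 ≤ x → 0 ≤ x / √s := fun s x hx => div_nonneg hx (Real.sqrt_nonneg _)
  refine ⟨s1, CR, hs1pos, hs11, φ, m, w, Sop w, E, smm.sm hmem, hsm.sm hmem, smS.sm hmem, hE1,
    fun s _ x _ => rfl, ?_, ?_, ?_, ?_, ?_, ?_, ?_, ?_, ?_, hE3, hE4⟩
  · -- lower bound
    intro s hs x hx
    rcases lt_or_ge x (1 / 8) with h | h
    · rw [hin s hs x ⟨hx.1, by linarith⟩]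
      have h1 := hprof.lower _ (hg0 s x hx.1)
      have h2 := hprof.c0_pos
      have h3 : g (x / √s) ≤ g (x / √s) / (1 - x) := by
        rw [le_div_iff₀ (by linarith)]
        nlinarith [hx.1]
      exact (min_le_left _ _).trans (h1.trans h3)
    · have := (hb1 s ⟨hs.1.le, hs.2.trans_le hs13⟩ x ⟨h, hx.2⟩).2.1
      rw [hPout s hs x ⟨h, hx.2⟩] at this
      exact (min_le_right _ _).trans this
  · -- upper bound
    intro s hs x hx
    rcases lt_or_ge x (1 / 8) with h | h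
    · rw [hin s hs x ⟨hx.1, by linarith⟩]
      have h1 := hprof.upper _ (hg0 s x hx.1)
      have h3 : g (x / √s) / (1 - x) ≤ 2 * P0 := by
        rw [div_le_iff₀ (by linarith)]
        nlinarith [hx.1]
      refine h3.trans ?_
      rw [hC0]; nlinarith
    · have := (hb1 s ⟨hs.1.le, hs.2.trans_le hs13⟩ x ⟨h, hx.2⟩).2.2.1
      rw [hPout s hs x ⟨h, hx.2⟩] at this
      refine this.trans ?_
      rw [hC0]; nlinarith
  · -- derivative of φ
    intro s hs x hx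
    rcases lt_or_ge x (1 / 8) with h | h
    · have hG : ∀ y, HasDerivAt (fun z => z * g z) (deriv (fun z => z * g z) y) y := fun y =>
        ((contDiff_id.mul hg.smooth).differentiable (by simp) y).hasDerivAt
      have hss : 0 < √s := Real.sqrt_pos.2 hs.1
      have h1 : HasDerivAt (fun y => √s * ((y / √s) * g (y / √s)))
          (√s * (deriv (fun z => z * g z) (x / √s) * (1 / √s))) x := by
        have h2 : HasDerivAt (fun y : ℝ => y / √s) (1 / √s) x := (hasDerivAt_id x).div_const _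
        exact ((hG (x / √s)).comp x h2).const_mul _
      have h3 : dx 1 φ s x = deriv (fun z => z * g z) (x / √s) := by
        refine dx_eq_of_hasDerivWithinAt one_pos hx ?_
        have h4 : √s * (deriv (fun z => z * g z) (x / √s) * (1 / √s))
            = deriv (fun z => z * g z) (x / √s) := by field_simp
        rw [h4] at h1
        refine h1.hasDerivWithinAt.congr_of_eventuallyEq ?_ ?_
        · have : ∀ᶠ y in 𝓝[Icc 0 1] x, y ∈ Icc (0 : ℝ) 1 ∧ y < 1 / 8 :=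
            (eventually_mem_nhdsWithin).and (mem_nhdsWithin_of_mem_nhds (Iio_mem_nhds h))
          filter_upwards [this] with y hy
          rw [hφin s hs y ⟨hy.1.1, by linarith [hy.2]⟩]
          field_simp
        · rw [hφin s hs x ⟨hx.1, by linarith⟩]
          field_simp
      rw [h3]
      refine (hprof.dG _ (hg0 s x hx.1)).trans ?_
      rw [hC0]; nlinarith
    · have h1 := (hb1 s ⟨hs.1.le, hs.2.trans_le hs13⟩ x ⟨h, hx.2⟩).2.2.2
      have h2 : dxK (Icc (1 / 8) 1) (fun s x => x * (1 - x) / PP (hW gh a M) s x) s x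
          = dx 1 φ s x := by
        have hd := smφ.hdX hUo (hmem s hs x hx)
        have e1 : dx 1 φ s x = dX φ s x := smφ.dx_eq hUo one_pos hx (hmem s hs x hx)
        rw [e1]
        have h3 : HasDerivWithinAt (fun y => y * (1 - y) / PP (hW gh a M) s y) (dX φ s x)
            (Icc (1 / 8) 1) x := by
          refine hd.hasDerivWithinAt.congr (fun y hy => ?_) ?_
          · simp only [hφ, hm]; rw [hPout s hs y hy]; ring
          · simp only [hφ, hm]; rw [hPout s hs x ⟨h, hx.2⟩]; ring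
        exact h3.derivWithin (uniqueDiffOn_Icc (by norm_num) x ⟨h, hx.2⟩)
      rw [h2] at h1
      refine h1.trans ?_
      rw [hC0]; nlinarith
  · -- time derivatives of m
    intro j hj s hs x hx
    rw [dt_iter_eq]
    rcases lt_or_ge x (1 / 8) with h | h
    · have e1 : iteratedDeriv j (fun r => m r x) s
          = iteratedDeriv j (fun r => g (x / √r) / (1 - x)) s :=
        iter_congr_pos (fun r hr => hin r hr x ⟨hx.1, by linarith⟩) j s hs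
      have e2 : iteratedDeriv j (fun r => g (x / √r) / (1 - x)) s
          = (1 - x)⁻¹ * iteratedDeriv j (fun r => g (x / √r)) s := by
        have : (fun r => g (x / √r) / (1 - x)) = fun r => (1 - x)⁻¹ * g (x / √r) := by
          funext r; ring
        rw [this, iteratedDeriv_const_mul_field]
      rw [e1, e2, abs_mul]
      have h1 := hCI j hj s hs.1 x hx.1
      have h2 : |(1 - x)⁻¹| ≤ 2 := by
        rw [abs_of_pos (inv_pos.2 (by linarith))]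
        rw [inv_le_comm₀ (by linarith) (by norm_num)]
        linarith
      calc (x ^ 2 + s) ^ j * (|(1 - x)⁻¹| * |iteratedDeriv j (fun r => g (x / √r)) s|)
          = |(1 - x)⁻¹| * ((x ^ 2 + s) ^ j * |iteratedDeriv j (fun r => g (x / √r)) s|) := by ring
        _ ≤ 2 * CI := mul_le_mul h2 h1 (mul_nonneg (pow_nonneg (by nlinarith [hs.1]) _)
            (abs_nonneg _)) (by norm_num)
        _ ≤ C0 := by rw [hC0]; nlinarith
    · have e1 : iteratedDeriv j (fun r => m r x) s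
          = iteratedDeriv j (fun r => 1 / PP (hW gh a M) r x) s :=
        iter_congr_pos (fun r hr => by simp only [hm]; rw [hPout r hr x ⟨h, hx.2⟩]) j s hs
      rw [e1]
      have h1 := hb2 s ⟨hs.1, hs.2.trans_le hs13⟩ x ⟨h, hx.2⟩ j hj
      have h2 : (x ^ 2 + s) ^ j ≤ 2 ^ 9 := by
        have h3 : x ^ 2 + s ≤ 2 := by nlinarith [hx.1, hx.2, hs.2]
        have h4 : 0 ≤ x ^ 2 + s := by nlinarith [hs.1]
        calc (x ^ 2 + s) ^ j ≤ 2 ^ j := pow_le_pow_left₀ h4 h3 j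
          _ ≤ 2 ^ 9 := pow_le_pow_right₀ (by norm_num) hj
      calc (x ^ 2 + s) ^ j * |iteratedDeriv j (fun r => 1 / PP (hW gh a M) r x) s|
          ≤ 2 ^ 9 * C1 := mul_le_mul h2 h1 (abs_nonneg _) (by norm_num)
        _ ≤ C0 := by rw [hC0]; nlinarith
  · -- inner form
    intro s hs x hx
    exact hφin s hs x ⟨hx.1, by linarith [hx.2]⟩
  · -- 1/φ
    intro s hs x hx
    have h1 := hP s hs x ⟨hx.1.le, hx.2.le⟩
    have hx0 : x ≠ 0 := hx.1.ne'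
    have hx1 : 1 - x ≠ 0 := by linarith [hx.2]
    have h2 : 1 + x * (1 - x) * w s x ≠ 0 := h1.ne'
    simp only [hφ, hm, Pw]
    field_simp
    ring
  · -- scalar curvature
    intro s hs x hx
    rw [← Kint_Sop hUo hsm hpos (hmem s hs) x hx]
    simp only [hφ, hm]
    ring
  · -- error
    intro s hs x hx
    rw [hE2 s hs x hx, smS.dx_dx_eq hUo one_pos (hmem s hs) hx]
    rfl
  · -- value at 0
    intro s hs
    exact hS0 s ⟨hs.1, hs.2.trans_le hs1g⟩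

end Crest.Agent.R213.D
end
end

-- ▼ part R213/D/Scale
section

/-!
# Row 213, part D4: scaling of the unit background to `[0,L]`

`UBg` = background on `(0,σ₁) × [0,1]`; `bg_of_unit` : a unit background with `|∂σ^j E| ≤ C σ^M`
(`j ≤ 9`) gives the background on `(0,1) × [0,L]` for all large `L`.
-/

set_option autoImplicit false

open Set MeasureTheory Filter Topology

noncomputable section

namespace Crest.Agent.R213

/-- Background on the unit interval, `σ ∈ (0,σ₁)`. -/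
structure UBg (c0 C0 A : ℝ) (g : ℝ → ℝ) (M : ℕ) (σ1 C : ℝ) (m w S E : ℝ → ℝ → ℝ) : Prop where
  s1_pos : 0 < σ1
  c0_pos : 0 < c0
  smm : Sm (Ioo 0 σ1) 1 m
  smw : Sm (Ioo 0 σ1) 1 w
  smS : Sm (Ioo 0 σ1) 1 S
  smE : Sm (Ioo 0 σ1) 1 E
  m_eq : ∀ σ ∈ Ioo 0 σ1, ∀ x ∈ Icc (0 : ℝ) 1, m σ x * (1 + x * (1 - x) * w σ x) = 1
  lower : ∀ σ ∈ Ioo 0 σ1, ∀ x ∈ Icc (0 : ℝ) 1, c0 ≤ m σ x
  upper : ∀ σ ∈ Ioo 0 σ1, ∀ x ∈ Icc (0 : ℝ) 1, m σ x ≤ C0
  dphi : ∀ σ ∈ Ioo 0 σ1, ∀ x ∈ Icc (0 : ℝ) 1, |dx 1 (fun t y => y * (1 - y) * m t y) σ x| ≤ C0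
  dtm : ∀ j ≤ 9, ∀ σ ∈ Ioo 0 σ1, ∀ x ∈ Icc (0 : ℝ) 1, (x ^ 2 + σ) ^ j * |(dt^[j] m) σ x| ≤ C0
  inner : ∀ σ ∈ Ioo 0 σ1, ∀ x ∈ Icc (0 : ℝ) (1 / 8), (1 - x) * m σ x = g (x / √σ)
  scal : ∀ σ ∈ Ioo 0 σ1, ∀ x ∈ Icc (0 : ℝ) 1,
    x ^ 10 - x ^ 9 * (x * (1 - x) * m σ x) = Kint (S σ) x
  eqE : ∀ σ ∈ Ioo 0 σ1, ∀ x ∈ Icc (0 : ℝ) 1,
    dx 1 (dx 1 E) σ x = dt w σ x - dx 1 (dx 1 S) σ x
  S0 : ∀ σ ∈ Ioo 0 σ1, S σ 0 = 110 * A / √σ
  E0 : ∀ σ ∈ Ioo 0 σ1, ∀ x ∈ Icc (0 : ℝ) (1 / 8), E σ x = 0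
  Eb : ∀ j ≤ 9, ∀ σ ∈ Ioo 0 σ1, ∀ x ∈ Icc (0 : ℝ) 1, |(dt^[j] E) σ x| ≤ C * σ ^ M

namespace D

/-- iterated `dt` of a rescaled function (unconditional) -/
theorem dt_iter_scale (c a b : ℝ) (u : ℝ → ℝ → ℝ) (j : ℕ) :
    dt^[j] (fun τ x => c * u (a * τ) (b * x)) =
      fun τ x => c * a ^ j * (dt^[j] u) (a * τ) (b * x) := by
  induction j with
  | zero => simp
  | succ j ih =>
    rw [Function.iterate_succ_apply', ih]
    funext τ x
    rw [Function.iterate_succ_apply']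
    unfold dt
    rw [deriv_const_mul_field]
    have := deriv_comp_mul_left (𝕜 := ℝ) a (fun r => (dt^[j] u) r (b * x)) τ
    unfold dt at this
    rw [this, smul_eq_mul, pow_succ]
    ring

theorem Kint_scaled (b : ℝ) (hb : b ≠ 0) (F : ℝ → ℝ) (x : ℝ) :
    Kint (fun y => b * F (b * y)) x = (b⁻¹) ^ 10 * Kint F (b * x) := by
  rw [J310.Kint_scale, J310.Kint_scale]
  have e : (∫ r in (0 : ℝ)..1, (1 - r) * r ^ 9 * (b * F (b * (r * x)))) =
      b * ∫ r in (0 : ℝ)..1, (1 - r) * r ^ 9 * F (r * (b * x)) := by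
    rw [← intervalIntegral.integral_const_mul]
    refine intervalIntegral.integral_congr fun r _ => ?_
    show (1 - r) * r ^ 9 * (b * F (b * (r * x))) = b * ((1 - r) * r ^ 9 * F (r * (b * x)))
    rw [show b * (r * x) = r * (b * x) by ring]
    ring
  rw [e, mul_pow]
  field_simp

theorem alg_inv (b X W : ℝ) (hb : b ≠ 0) (hX : X ≠ 0) (h1 : 1 - X ≠ 0) :
    1 / ((X / b) * (1 - X)) * (1 + X * (1 - X) * W) =
      1 / (X / b) + 1 / ((1 / b) * (1 - X)) + b * W := by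
  field_simp
  ring

section

variable {c0 C0 A : ℝ} {g : ℝ → ℝ} {M : ℕ} {σ1 C L : ℝ} {m w S E : ℝ → ℝ → ℝ}

theorem bg_scale (h : UBg c0 C0 A g M σ1 C m w S E) (hL8 : 8 ≤ L) (hL : 1 / L ^ 2 ≤ σ1) :
    let a := 1 / L ^ 2
    let b := 1 / L
    let m' := fun τ x => m (a * τ) (b * x)
    let φ' := fun τ x => x * (1 - x / L) * m (a * τ) (b * x)
    let w' := fun τ x => b * w (a * τ) (b * x)
    let S' := fun τ x => b * S (a * τ) (b * x)
    let E' := fun τ x => b * E (a * τ) (b * x)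
    Bg c0 C0 g L φ' m' ∧ Sm (Ioo 0 1) L w' ∧ Sm (Ioo 0 1) L S' ∧ Sm (Ioo 0 1) L E' ∧
      (∀ τ ∈ Ioo (0 : ℝ) 1, ∀ x ∈ Ioo 0 L, 1 / φ' τ x = 1 / x + 1 / (L - x) + w' τ x) ∧
      (∀ τ ∈ Ioo (0 : ℝ) 1, ∀ x ∈ Icc 0 L, x ^ 10 - x ^ 9 * φ' τ x = Kint (S' τ) x) ∧
      (∀ τ ∈ Ioo (0 : ℝ) 1, ∀ x ∈ Icc 0 L,
        dx L (dx L E') τ x = dt w' τ x - dx L (dx L S') τ x) ∧
      (∀ τ ∈ Ioo (0 : ℝ) 1, S' τ 0 = 110 * A / √τ) ∧
      (∀ τ ∈ Ioo (0 : ℝ) 1, ∀ x ∈ Icc 0 1, E' τ x = 0) ∧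
      (∀ j ≤ 9, ∀ τ ∈ Ioo (0 : ℝ) 1, ∀ x ∈ Icc 0 L,
        |(dt^[j] E') τ x| ≤ |C| * (L⁻¹) ^ (2 * M)) := by
  intro a b m' φ' w' S' E'
  have hL0 : 0 < L := by linarith
  have ha : 0 < a := by positivity
  have hb : 0 < b := by positivity
  have hbL : b * L = 1 := by simp only [b]; field_simp
  have hab : a = b ^ 2 := by simp only [a, b]; field_simp
  have hb1 : b ≤ 1 := by
    simp only [b]; rw [div_le_one hL0]; linarith
  have ha1 : a ≤ 1 := by rw [hab]; exact pow_le_one₀ hb.le hb1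
  have hσ : ∀ τ ∈ Ioo (0 : ℝ) 1, a * τ ∈ Ioo 0 σ1 := by
    intro τ hτ
    refine ⟨mul_pos ha hτ.1, ?_⟩
    calc a * τ < a * 1 := mul_lt_mul_of_pos_left hτ.2 ha
      _ ≤ σ1 := by rw [mul_one]; exact hL
  have hx1 : ∀ x ∈ Icc 0 L, b * x ∈ Icc (0 : ℝ) 1 := by
    intro x hx
    refine ⟨mul_nonneg hb.le hx.1, ?_⟩
    rw [← hbL]; exact mul_le_mul_of_nonneg_left hx.2 hb.le
  have hxb : ∀ x, x / L = b * x := by intro x; simp only [b]; ring
  -- smoothness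
  have smsc : ∀ u, Sm (Ioo 0 σ1) 1 u → Sm (Ioo 0 1) L (fun τ x => u (a * τ) (b * x)) := by
    intro u hu
    have := Sm.scale (α := 0) (β := a) (k := b) (L := L) (s' := Ioo 0 1) hb
      (by rw [hbL]; exact hu) (by simpa using hσ)
    simpa using this
  have dxsc : ∀ u, Sm (Ioo 0 σ1) 1 u → ∀ τ ∈ Ioo (0 : ℝ) 1, ∀ x ∈ Icc 0 L,
      dx L (fun τ x => u (a * τ) (b * x)) τ x = b * dx 1 u (a * τ) (b * x) := by
    intro u hu τ hτ x hx
    have := Sm.dx_scale (α := 0) (β := a) (k := b) (L := L) (s := Ioo 0 σ1) hb hL0 (u := u)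
      (by rw [hbL]; exact hu) (t := τ) (x := x) (by simpa using hσ τ hτ) hx
    simpa [hbL] using this
  have dxsc2 : ∀ u, Sm (Ioo 0 σ1) 1 u → ∀ τ ∈ Ioo (0 : ℝ) 1, ∀ x ∈ Icc 0 L,
      dx L (dx L (fun τ x => b * u (a * τ) (b * x))) τ x =
        b * (b * (b * dx 1 (dx 1 u) (a * τ) (b * x))) := by
    intro u hu τ hτ x hx
    have e1 : ∀ y ∈ Icc 0 L, dx L (fun τ x => b * u (a * τ) (b * x)) τ y =
        b * (b * dx 1 u (a * τ) (b * y)) := by
      intro y hy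
      rw [Sm.dx_const_mul b (smsc u hu) hL0 hτ hy, dxsc u hu τ hτ y hy]
    rw [dx_congr (u := fun τ y => b * (b * dx 1 u (a * τ) (b * y))) e1 hx]
    have hu' : Sm (Ioo 0 σ1) 1 (dx 1 u) := Sm.dx isOpen_Ioo one_pos hu
    rw [Sm.dx_const_mul b ((smsc _ hu').const_mul b) hL0 hτ hx,
      Sm.dx_const_mul b (smsc _ hu') hL0 hτ hx, dxsc _ hu' τ hτ x hx]
  refine ⟨?_, (smsc w h.smw).const_mul b, (smsc S h.smS).const_mul b, (smsc E h.smE).const_mul b,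
    ?_, ?_, ?_, ?_, ?_, ?_⟩
  · -- Bg
    refine ⟨hL8, smsc m h.smm, fun τ _ x _ => rfl, ?_, ?_, ?_, ?_, ?_⟩
    · exact fun τ hτ x hx => h.lower _ (hσ τ hτ) _ (hx1 x hx)
    · exact fun τ hτ x hx => h.upper _ (hσ τ hτ) _ (hx1 x hx)
    · intro τ hτ x hx
      have hsm : Sm (Ioo 0 σ1) 1 (fun t y => y * (1 - y) * m t y) :=
        (Sm.snd.mul ((Sm.const 1).sub Sm.snd)).mul h.smm
      have e : ∀ y ∈ Icc 0 L, φ' τ y =
          (fun τ x => L * (fun t y => y * (1 - y) * m t y) (a * τ) (b * x)) τ y := by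
        intro y _
        simp only [φ']
        rw [hxb y]
        have : y = L * (b * y) := by rw [← mul_assoc, mul_comm L b, hbL, one_mul]
        nth_rewrite 1 [this]
        ring
      rw [dx_congr (u := fun τ x => L * (fun t y => y * (1 - y) * m t y) (a * τ) (b * x)) e hx,
        Sm.dx_const_mul L (smsc _ hsm) hL0 hτ hx, dxsc _ hsm τ hτ x hx,
        ← mul_assoc, mul_comm L b, hbL, one_mul]
      exact h.dphi _ (hσ τ hτ) _ (hx1 x hx)
    · intro j hj τ hτ x hx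
      have e := dt_iter_scale 1 a b m j
      simp only [one_mul] at e
      rw [show m' = fun τ x => m (a * τ) (b * x) from rfl, e]
      simp only
      rw [abs_mul, abs_of_nonneg (by positivity : (0 : ℝ) ≤ a ^ j)]
      have := h.dtm j hj _ (hσ τ hτ) _ (hx1 x hx)
      have e2 : (x ^ 2 + τ) ^ j * (a ^ j * |(dt^[j] m) (a * τ) (b * x)|) =
          ((b * x) ^ 2 + a * τ) ^ j * |(dt^[j] m) (a * τ) (b * x)| := by
        rw [← mul_assoc, ← mul_pow]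
        congr 2
        rw [hab]; ring
      rw [e2]; exact this
    · intro τ hτ x hx
      have hx' : b * x ∈ Icc (0 : ℝ) (1 / 8) := by
        refine ⟨mul_nonneg hb.le hx.1, ?_⟩
        calc b * x ≤ b * (L / 8) := mul_le_mul_of_nonneg_left hx.2 hb.le
          _ = 1 / 8 := by rw [← mul_div_assoc, hbL]
      have := h.inner _ (hσ τ hτ) _ hx'
      simp only [φ']
      rw [hxb x, mul_assoc, this]
      congr 2
      rw [hab, Real.sqrt_mul (by positivity), Real.sqrt_sq hb.le]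
      rw [mul_div_mul_left _ _ hb.ne']
  · -- `1/φ`
    intro τ hτ x hx
    have hx' : x ∈ Icc 0 L := Ioo_subset_Icc_self hx
    have e := h.m_eq _ (hσ τ hτ) _ (hx1 x hx')
    have hm : m (a * τ) (b * x) ≠ 0 := by
      intro h0; rw [h0, zero_mul] at e; exact zero_ne_one e
    have hxL : L - x ≠ 0 := by linarith [hx.2]
    have hx0 : x ≠ 0 := hx.1.ne'
    have h1x : 1 - x / L ≠ 0 := by
      intro h0
      have : x / L = 1 := by linarith
      rw [div_eq_one_iff_eq hL0.ne'] at this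
      linarith [hx.2]
    simp only [φ', w']
    have e3 : 1 / m (a * τ) (b * x) = 1 + (b * x) * (1 - b * x) * w (a * τ) (b * x) := by
      rw [div_eq_iff hm, mul_comm]; exact e.symm
    have e4 : 1 / (x * (1 - x / L) * m (a * τ) (b * x)) =
        1 / (x * (1 - x / L)) * (1 / m (a * τ) (b * x)) := by
      field_simp
    rw [e4, e3, hxb x]
    have h1x' : 1 - b * x ≠ 0 := by rw [← hxb]; exact h1x
    have hb' : b = 1 / L := rfl
    have hLx : L - x = L * (1 - b * x) := by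
      rw [mul_sub, mul_one, ← mul_assoc, mul_comm L b, hbL, one_mul]
    rw [hLx]
    have hLb : L = 1 / b := by rw [hb']; field_simp
    rw [hLb]
    have hX0 : b * x ≠ 0 := mul_ne_zero hb.ne' hx0
    have hxX : x = (b * x) / b := by field_simp
    have key := alg_inv b (b * x) (w (a * τ) (b * x)) hb.ne' hX0 h1x'
    rw [← hxX] at key
    exact key
  · -- scal
    intro τ hτ x hx
    have e := h.scal _ (hσ τ hτ) _ (hx1 x hx)
    have e1 := Kint_scaled b hb.ne' (S (a * τ)) x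
    simp only [S', φ']
    rw [e1, ← e, hxb x]
    field_simp
  · -- equation for E
    intro τ hτ x hx
    rw [dxsc2 E h.smE τ hτ x hx, dxsc2 S h.smS τ hτ x hx]
    have e := dt_iter_scale b a b w 1
    simp only [Function.iterate_one, pow_one] at e
    rw [show w' = fun τ x => b * w (a * τ) (b * x) from rfl, e]
    simp only
    rw [h.eqE _ (hσ τ hτ) _ (hx1 x hx), hab]
    ring
  · intro τ hτ
    simp only [S', mul_zero]
    rw [h.S0 _ (hσ τ hτ), hab, Real.sqrt_mul (by positivity), Real.sqrt_sq hb.le]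
    field_simp
  · intro τ hτ x hx
    simp only [E']
    rw [h.E0 _ (hσ τ hτ) (b * x), mul_zero]
    refine ⟨mul_nonneg hb.le hx.1, ?_⟩
    calc b * x ≤ b * 1 := mul_le_mul_of_nonneg_left hx.2 hb.le
      _ ≤ 1 / 8 := by
        rw [mul_one]; simp only [b]
        exact one_div_le_one_div_of_le (by norm_num) hL8
  · intro j hj τ hτ x hx
    rw [show E' = fun τ x => b * E (a * τ) (b * x) from rfl, dt_iter_scale b a b E j]
    simp only
    rw [abs_mul, abs_of_nonneg (by positivity : (0 : ℝ) ≤ b * a ^ j)]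
    have e := h.Eb j hj _ (hσ τ hτ) _ (hx1 x hx)
    have e1 : C * (a * τ) ^ M ≤ |C| * (L⁻¹) ^ (2 * M) := by
      have : (a * τ) ^ M ≤ (L⁻¹) ^ (2 * M) := by
        rw [pow_mul]
        refine pow_le_pow_left₀ (by have := hτ.1; positivity) ?_ M
        calc a * τ ≤ a * 1 := mul_le_mul_of_nonneg_left hτ.2.le ha.le
          _ = (L⁻¹) ^ 2 := by simp only [a]; rw [mul_one, one_div, inv_pow]
      calc C * (a * τ) ^ M ≤ |C| * (a * τ) ^ M :=
            mul_le_mul_of_nonneg_right (le_abs_self C) (by have := hτ.1; positivity)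
        _ ≤ _ := mul_le_mul_of_nonneg_left this (abs_nonneg C)
    have e2 : b * a ^ j ≤ 1 := mul_le_one₀ hb1 (by positivity) (pow_le_one₀ ha.le ha1)
    calc b * a ^ j * |(dt^[j] E) (a * τ) (b * x)| ≤ 1 * |(dt^[j] E) (a * τ) (b * x)| :=
          mul_le_mul_of_nonneg_right e2 (abs_nonneg _)
      _ ≤ _ := by rw [one_mul]; exact e.trans e1

end

/-- **D4**: the unit backgrounds give `bg_exists`. -/
theorem bg_of_unit {A : ℝ} {g : ℝ → ℝ}
    (hU : ∃ c0 C0 : ℝ, Prof c0 C0 g ∧ ∀ M : ℕ, ∃ (σ1 C : ℝ) (m w S E : ℝ → ℝ → ℝ),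
      UBg c0 C0 A g M σ1 C m w S E) :
    ∃ c0 C0 : ℝ, Prof c0 C0 g ∧ ∀ P : ℕ, ∃ L2 : ℝ, ∀ L ≥ L2, ∃ φ m w S E : ℝ → ℝ → ℝ,
      Bg c0 C0 g L φ m ∧ Sm (Ioo 0 1) L w ∧ Sm (Ioo 0 1) L S ∧ Sm (Ioo 0 1) L E ∧
      (∀ τ ∈ Ioo (0 : ℝ) 1, ∀ x ∈ Ioo 0 L, 1 / φ τ x = 1 / x + 1 / (L - x) + w τ x) ∧
      (∀ τ ∈ Ioo (0 : ℝ) 1, ∀ x ∈ Icc 0 L, x ^ 10 - x ^ 9 * φ τ x = Kint (S τ) x) ∧
      (∀ τ ∈ Ioo (0 : ℝ) 1, ∀ x ∈ Icc 0 L,
        dx L (dx L E) τ x = dt w τ x - dx L (dx L S) τ x) ∧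
      (∀ τ ∈ Ioo (0 : ℝ) 1, S τ 0 = 110 * A / √τ) ∧
      (∀ τ ∈ Ioo (0 : ℝ) 1, ∀ x ∈ Icc 0 1, E τ x = 0) ∧
      (∀ j ≤ 9, ∀ τ ∈ Ioo (0 : ℝ) 1, ∀ x ∈ Icc 0 L, |(dt^[j] E) τ x| ≤ L ^ (-(P : ℝ))) := by
  obtain ⟨c0, C0, hP, hU⟩ := hU
  refine ⟨c0, C0, hP, fun P => ?_⟩
  obtain ⟨σ1, C, m, w, S, E, h⟩ := hU (P + 1)
  refine ⟨max (max 8 (1 / σ1)) (|C| + 1), fun L hL => ?_⟩
  have hL8 : 8 ≤ L := (le_max_left _ _).trans ((le_max_left _ _).trans hL)
  have hLσ : 1 / σ1 ≤ L := (le_max_right _ _).trans ((le_max_left _ _).trans hL)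
  have hLC : |C| + 1 ≤ L := (le_max_right _ _).trans hL
  have hL0 : 0 < L := by linarith
  have h1 : 1 / L ^ 2 ≤ σ1 := by
    have h2 : 1 / L ≤ σ1 := by
      rw [div_le_iff₀ hL0]
      rw [div_le_iff₀ h.s1_pos] at hLσ
      linarith
    refine le_trans ?_ h2
    exact one_div_le_one_div_of_le hL0 (by nlinarith)
  have key := bg_scale h hL8 h1
  refine ⟨_, _, _, _, _, key.1, key.2.1, key.2.2.1, key.2.2.2.1, key.2.2.2.2.1, key.2.2.2.2.2.1,
    key.2.2.2.2.2.2.1, key.2.2.2.2.2.2.2.1, key.2.2.2.2.2.2.2.2.1, ?_⟩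
  intro j hj τ hτ x hx
  refine (key.2.2.2.2.2.2.2.2.2 j hj τ hτ x hx).trans ?_
  rw [Real.rpow_neg hL0.le, Real.rpow_natCast, ← inv_pow]
  have hi : L⁻¹ ≤ 1 := inv_le_one_of_one_le₀ (by linarith)
  have hi0 : 0 < L⁻¹ := inv_pos.2 hL0
  have e1 : (L⁻¹) ^ (2 * (P + 1)) ≤ (L⁻¹) ^ (P + 1) :=
    pow_le_pow_of_le_one hi0.le hi (by omega)
  calc |C| * (L⁻¹) ^ (2 * (P + 1)) ≤ L * (L⁻¹) ^ (P + 1) :=
        mul_le_mul (by linarith) e1 (by positivity) hL0.le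
    _ = (L⁻¹) ^ P := by rw [pow_succ]; field_simp

/-- the form of helper800's `unit_bg` gives `UBg` -/
theorem ubg_of_unit_bg {c0 C0 A s1 C : ℝ} {g : ℝ → ℝ} {M : ℕ} (hc0 : 0 < c0) (h1 : 0 < s1)
    (h1' : s1 ≤ 1) {φ m w S E : ℝ → ℝ → ℝ}
    (smm : Sm (Ioo 0 s1) 1 m) (smw : Sm (Ioo 0 s1) 1 w) (smS : Sm (Ioo 0 s1) 1 S)
    (smE : Sm (Ioo 0 s1) 1 E)
    (hφ : ∀ s ∈ Ioo 0 s1, ∀ x ∈ Icc (0 : ℝ) 1, φ s x = x * (1 - x) * m s x)
    (lower : ∀ s ∈ Ioo 0 s1, ∀ x ∈ Icc (0 : ℝ) 1, c0 ≤ m s x)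
    (upper : ∀ s ∈ Ioo 0 s1, ∀ x ∈ Icc (0 : ℝ) 1, m s x ≤ C0)
    (dphi : ∀ s ∈ Ioo 0 s1, ∀ x ∈ Icc (0 : ℝ) 1, |dx 1 φ s x| ≤ C0)
    (dtm : ∀ j ≤ 9, ∀ s ∈ Ioo 0 s1, ∀ x ∈ Icc (0 : ℝ) 1,
        (x ^ 2 + s) ^ j * |(dt^[j] m) s x| ≤ C0)
    (inner : ∀ s ∈ Ioo 0 s1, ∀ x ∈ Icc (0 : ℝ) (1 / 8), φ s x = x * g (x / √s))
    (hw : ∀ s ∈ Ioo 0 s1, ∀ x ∈ Ioo (0 : ℝ) 1, 1 / φ s x = 1 / x + 1 / (1 - x) + w s x)
    (scal : ∀ s ∈ Ioo 0 s1, ∀ x ∈ Icc (0 : ℝ) 1, x ^ 10 - x ^ 9 * φ s x = Kint (S s) x)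
    (eqE : ∀ s ∈ Ioo 0 s1, ∀ x ∈ Icc (0 : ℝ) 1,
        dx 1 (dx 1 E) s x = dt w s x - dx 1 (dx 1 S) s x)
    (S0 : ∀ s ∈ Ioo 0 s1, S s 0 = 110 * A / √s)
    (E0 : ∀ s ∈ Ioo 0 s1, ∀ x ∈ Icc (0 : ℝ) (1 / 8), E s x = 0)
    (Eb : ∀ j ≤ 9, ∀ s ∈ Ioo 0 s1, ∀ x ∈ Icc (0 : ℝ) 1,
      |(dt^[j] E) s x| ≤ C * s ^ (M + 9 - j)) (hcont : Continuous g) :
    UBg c0 C0 A g M s1 |C| m w S E where
  s1_pos := h1
  c0_pos := hc0
  smm := smm
  smw := smw
  smS := smS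
  smE := smE
  m_eq := by
    intro σ hσ
    have hc1 : ContinuousOn (fun x => m σ x * (1 + x * (1 - x) * w σ x)) (Icc 0 1) := by
      have c1 := smm.continuousOn_right hσ
      have c2 := smw.continuousOn_right hσ
      fun_prop
    have hEq : EqOn (fun x => m σ x * (1 + x * (1 - x) * w σ x)) (fun _ => (1 : ℝ)) (Ioo 0 1) := by
      intro x hx
      have hx' : x ∈ Icc (0 : ℝ) 1 := Ioo_subset_Icc_self hx
      have hm : m σ x ≠ 0 := (hc0.trans_le (lower σ hσ x hx')).ne'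
      have h2 := hw σ hσ x hx
      rw [hφ σ hσ x hx'] at h2
      have hx0 : x ≠ 0 := hx.1.ne'
      have hx1 : 1 - x ≠ 0 := by linarith [hx.2]
      show m σ x * (1 + x * (1 - x) * w σ x) = 1
      have h3 : w σ x = 1 / (x * (1 - x) * m σ x) - 1 / x - 1 / (1 - x) := by rw [h2]; ring
      rw [h3]
      field_simp
      ring
    have := hEq.of_subset_closure hc1 continuousOn_const Ioo_subset_Icc_self
      (by rw [closure_Ioo zero_ne_one])
    exact fun x hx => this hx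
  lower := lower
  upper := upper
  dphi := by
    intro σ hσ x hx
    rw [dx_congr (u := φ) (fun y hy => (hφ σ hσ y hy).symm) hx]
    exact dphi σ hσ x hx
  dtm := dtm
  inner := by
    intro σ hσ
    have hc1 : ContinuousOn (fun x => (1 - x) * m σ x) (Icc 0 (1 / 8)) := by
      have c1 := (smm.continuousOn_right hσ).mono
        (Icc_subset_Icc_right (by norm_num : (1 : ℝ) / 8 ≤ 1))
      fun_prop
    have hc2 : ContinuousOn (fun x => g (x / √σ)) (Icc 0 (1 / 8)) := by fun_prop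
    have hEq : EqOn (fun x => (1 - x) * m σ x) (fun x => g (x / √σ)) (Ioo 0 (1 / 8)) := by
      intro x hx
      have e1 := inner σ hσ x (Ioo_subset_Icc_self hx)
      rw [hφ σ hσ x ⟨hx.1.le, by linarith [hx.2]⟩, mul_assoc] at e1
      exact mul_left_cancel₀ hx.1.ne' e1
    have := hEq.of_subset_closure hc1 hc2 Ioo_subset_Icc_self
      (by rw [closure_Ioo (by norm_num)])
    exact fun x hx => this hx
  scal := by
    intro σ hσ x hx
    rw [← hφ σ hσ x hx]; exact scal σ hσ x hx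
  eqE := eqE
  S0 := S0
  E0 := E0
  Eb := by
    intro j hj σ hσ x hx
    refine (Eb j hj σ hσ x hx).trans ?_
    have hσ0 : 0 ≤ σ := hσ.1.le
    have e1 : σ ^ (M + 9 - j) ≤ σ ^ M :=
      pow_le_pow_of_le_one hσ0 (hσ.2.le.trans h1') (by omega)
    calc C * σ ^ (M + 9 - j) ≤ |C| * σ ^ (M + 9 - j) :=
          mul_le_mul_of_nonneg_right (le_abs_self C) (pow_nonneg hσ0 _)
      _ ≤ _ := mul_le_mul_of_nonneg_left e1 (abs_nonneg C)

/-- **D4** : `unit_bg` (in the form of DIface.lean) gives `bg_exists`. -/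
theorem bg_of_unit_bg {A : ℝ} {g : ℝ → ℝ}
    (hU : ∃ c0 C0 : ℝ, Prof c0 C0 g ∧ ∀ M : ℕ, 9 ≤ M → ∃ s1 C : ℝ, 0 < s1 ∧ s1 ≤ 1 ∧
      ∃ φ m w S E : ℝ → ℝ → ℝ,
      Sm (Ioo 0 s1) 1 m ∧ Sm (Ioo 0 s1) 1 w ∧ Sm (Ioo 0 s1) 1 S ∧ Sm (Ioo 0 s1) 1 E ∧
      (∀ s ∈ Ioo 0 s1, ∀ x ∈ Icc (0 : ℝ) 1, φ s x = x * (1 - x) * m s x) ∧
      (∀ s ∈ Ioo 0 s1, ∀ x ∈ Icc (0 : ℝ) 1, c0 ≤ m s x) ∧
      (∀ s ∈ Ioo 0 s1, ∀ x ∈ Icc (0 : ℝ) 1, m s x ≤ C0) ∧
      (∀ s ∈ Ioo 0 s1, ∀ x ∈ Icc (0 : ℝ) 1, |dx 1 φ s x| ≤ C0) ∧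
      (∀ j ≤ 9, ∀ s ∈ Ioo 0 s1, ∀ x ∈ Icc (0 : ℝ) 1,
        (x ^ 2 + s) ^ j * |(dt^[j] m) s x| ≤ C0) ∧
      (∀ s ∈ Ioo 0 s1, ∀ x ∈ Icc (0 : ℝ) (1 / 8), φ s x = x * g (x / √s)) ∧
      (∀ s ∈ Ioo 0 s1, ∀ x ∈ Ioo (0 : ℝ) 1, 1 / φ s x = 1 / x + 1 / (1 - x) + w s x) ∧
      (∀ s ∈ Ioo 0 s1, ∀ x ∈ Icc (0 : ℝ) 1, x ^ 10 - x ^ 9 * φ s x = Kint (S s) x) ∧
      (∀ s ∈ Ioo 0 s1, ∀ x ∈ Icc (0 : ℝ) 1,
        dx 1 (dx 1 E) s x = dt w s x - dx 1 (dx 1 S) s x) ∧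
      (∀ s ∈ Ioo 0 s1, S s 0 = 110 * A / √s) ∧
      (∀ s ∈ Ioo 0 s1, ∀ x ∈ Icc (0 : ℝ) (1 / 8), E s x = 0) ∧
      (∀ j ≤ 9, ∀ s ∈ Ioo 0 s1, ∀ x ∈ Icc (0 : ℝ) 1, |(dt^[j] E) s x| ≤ C * s ^ (M - j))) :
    ∃ c0 C0 : ℝ, Prof c0 C0 g ∧ ∀ P : ℕ, ∃ L2 : ℝ, ∀ L ≥ L2, ∃ φ m w S E : ℝ → ℝ → ℝ,
      Bg c0 C0 g L φ m ∧ Sm (Ioo 0 1) L w ∧ Sm (Ioo 0 1) L S ∧ Sm (Ioo 0 1) L E ∧
      (∀ τ ∈ Ioo (0 : ℝ) 1, ∀ x ∈ Ioo 0 L, 1 / φ τ x = 1 / x + 1 / (L - x) + w τ x) ∧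
      (∀ τ ∈ Ioo (0 : ℝ) 1, ∀ x ∈ Icc 0 L, x ^ 10 - x ^ 9 * φ τ x = Kint (S τ) x) ∧
      (∀ τ ∈ Ioo (0 : ℝ) 1, ∀ x ∈ Icc 0 L,
        dx L (dx L E) τ x = dt w τ x - dx L (dx L S) τ x) ∧
      (∀ τ ∈ Ioo (0 : ℝ) 1, S τ 0 = 110 * A / √τ) ∧
      (∀ τ ∈ Ioo (0 : ℝ) 1, ∀ x ∈ Icc 0 1, E τ x = 0) ∧
      (∀ j ≤ 9, ∀ τ ∈ Ioo (0 : ℝ) 1, ∀ x ∈ Icc 0 L, |(dt^[j] E) τ x| ≤ L ^ (-(P : ℝ))) := by
  obtain ⟨c0, C0, hP, hU⟩ := hU
  refine bg_of_unit ⟨c0, C0, hP, fun M => ?_⟩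
  obtain ⟨s1, C, h1, h1', φ, m, w, S, E, a1, a2, a3, a4, a5, a6, a7, a8, a9, a10, a11, a12, a13,
    a14, a15, a16⟩ := hU (M + 9) (by omega)
  exact ⟨s1, |C|, m, w, S, E, ubg_of_unit_bg hP.c0_pos h1 h1' a1 a2 a3 a4 a5 a6 a7 a8 a9 a10 a11
    a12 a13 a14 a15 a16 hP.smooth.continuous⟩

end D

end Crest.Agent.R213
end
end

-- ▼ part R213/D/Bg
section

/-!
# Row 213, part D: `bg_exists` (exactly the statement of Iface.lean)
-/

set_option autoImplicit false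

open Set MeasureTheory Filter Topology

noncomputable section

namespace Crest.Agent.R213

theorem bg_exists {c A : ℝ} {g gh : ℝ → ℝ} (hg : Soliton c A g gh) :
    ∃ c0 C0 : ℝ, Prof c0 C0 g ∧ ∀ P : ℕ, ∃ L2 : ℝ, ∀ L ≥ L2, ∃ φ m w S E : ℝ → ℝ → ℝ,
      Bg c0 C0 g L φ m ∧ Sm (Ioo 0 1) L w ∧ Sm (Ioo 0 1) L S ∧ Sm (Ioo 0 1) L E ∧
      (∀ τ ∈ Ioo (0 : ℝ) 1, ∀ x ∈ Ioo 0 L, 1 / φ τ x = 1 / x + 1 / (L - x) + w τ x) ∧
      (∀ τ ∈ Ioo (0 : ℝ) 1, ∀ x ∈ Icc 0 L, x ^ 10 - x ^ 9 * φ τ x = Kint (S τ) x) ∧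
      (∀ τ ∈ Ioo (0 : ℝ) 1, ∀ x ∈ Icc 0 L,
        dx L (dx L E) τ x = dt w τ x - dx L (dx L S) τ x) ∧
      (∀ τ ∈ Ioo (0 : ℝ) 1, S τ 0 = 110 * A / √τ) ∧
      (∀ τ ∈ Ioo (0 : ℝ) 1, ∀ x ∈ Icc 0 1, E τ x = 0) ∧
      (∀ j ≤ 9, ∀ τ ∈ Ioo (0 : ℝ) 1, ∀ x ∈ Icc 0 L, |(dt^[j] E) τ x| ≤ L ^ (-(P : ℝ))) :=
  D.bg_of_unit_bg (D.unit_bg hg)

end Crest.Agent.R213
end
end

-- ▼ part R213/P/FlowExists

/-!
# Row 213, part P: assembly of `flow_exists` from `soliton_exists`, `bg_exists`, `pde_main`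
-/

set_option autoImplicit false

open Set MeasureTheory Filter Topology

noncomputable section

namespace Crest.Agent.R213.P

open Crest.Agent.R213

/-! ### `Kint`: linearity and scaling (private copies) -/

theorem kint_integrable {F : ℝ → ℝ} {L x : ℝ} (hF : ContinuousOn F (Icc 0 L)) (hx : x ∈ Icc 0 L) :
    IntervalIntegrable (fun ξ => (x - ξ) * ξ ^ 9 * F ξ) volume 0 x := by
  apply ContinuousOn.intervalIntegrable
  rw [uIcc_of_le hx.1]
  refine ContinuousOn.mul (Continuous.continuousOn (by fun_prop)) ?_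
  exact hF.mono (Icc_subset_Icc_right hx.2)

theorem kint_add {F G : ℝ → ℝ} {L x : ℝ} (hF : ContinuousOn F (Icc 0 L))
    (hG : ContinuousOn G (Icc 0 L)) (hx : x ∈ Icc 0 L) :
    Kint (fun ξ => F ξ + G ξ) x = Kint F x + Kint G x := by
  unfold Kint
  rw [← intervalIntegral.integral_add (kint_integrable hF hx) (kint_integrable hG hx)]
  congr 1
  ext ξ
  ring

/-- `Kint (k F(k·)) x = k^{-10} Kint F (k x)` -/
theorem kint_scale {F : ℝ → ℝ} {k x : ℝ} (hk : 0 < k) :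
    Kint (fun ξ => k * F (k * ξ)) x = (k ^ 10)⁻¹ * Kint F (k * x) := by
  unfold Kint
  have h := intervalIntegral.integral_comp_mul_left (a := (0 : ℝ)) (b := x)
    (fun η => (k * x - η) * η ^ 9 * F η) hk.ne'
  simp only [mul_zero, smul_eq_mul] at h
  have h2 : ∀ ξ : ℝ, (x - ξ) * ξ ^ 9 * (k * F (k * ξ))
      = (k ^ 9)⁻¹ * ((k * x - k * ξ) * (k * ξ) ^ 9 * F (k * ξ)) := by
    intro ξ
    field_simp
  simp only [h2]
  rw [intervalIntegral.integral_const_mul, h]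
  rw [← mul_assoc, ← mul_inv]
  ring_nf

/-! ### Assembly -/

theorem flow_exists_of
    (hsol : ∃ (c A : ℝ) (g gh : ℝ → ℝ), Soliton c A g gh)
    (hbg : ∀ {c A : ℝ} {g gh : ℝ → ℝ} (_ : Soliton c A g gh),
      ∃ c0 C0 : ℝ, Prof c0 C0 g ∧ ∀ P : ℕ, ∃ L2 : ℝ, ∀ L ≥ L2, ∃ φ m w S E : ℝ → ℝ → ℝ,
      Bg c0 C0 g L φ m ∧ Sm (Ioo 0 1) L w ∧ Sm (Ioo 0 1) L S ∧ Sm (Ioo 0 1) L E ∧
      (∀ τ ∈ Ioo (0 : ℝ) 1, ∀ x ∈ Ioo 0 L, 1 / φ τ x = 1 / x + 1 / (L - x) + w τ x) ∧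
      (∀ τ ∈ Ioo (0 : ℝ) 1, ∀ x ∈ Icc 0 L, x ^ 10 - x ^ 9 * φ τ x = Kint (S τ) x) ∧
      (∀ τ ∈ Ioo (0 : ℝ) 1, ∀ x ∈ Icc 0 L,
        dx L (dx L E) τ x = dt w τ x - dx L (dx L S) τ x) ∧
      (∀ τ ∈ Ioo (0 : ℝ) 1, S τ 0 = 110 * A / √τ) ∧
      (∀ τ ∈ Ioo (0 : ℝ) 1, ∀ x ∈ Icc 0 1, E τ x = 0) ∧
      (∀ j ≤ 9, ∀ τ ∈ Ioo (0 : ℝ) 1, ∀ x ∈ Icc 0 L, |(dt^[j] E) τ x| ≤ L ^ (-(P : ℝ))))
    (hpde : ∀ {c0 C0 : ℝ} {g : ℝ → ℝ} (_ : Prof c0 C0 g),
      ∃ (L1 : ℝ) (P : ℕ), ∀ L ≥ L1, ∀ φ m : ℝ → ℝ → ℝ, Bg c0 C0 g L φ m →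
      ∀ E : ℝ → ℝ → ℝ, Sm (Ioo 0 1) L E →
        (∀ τ ∈ Ioo (0 : ℝ) 1, ∀ x ∈ Icc 0 1, E τ x = 0) →
        (∀ j ≤ 9, ∀ τ ∈ Ioo (0 : ℝ) 1, ∀ x ∈ Icc 0 L, |(dt^[j] E) τ x| ≤ L ^ (-(P : ℝ))) →
      ∃ δ : ℝ → ℝ → ℝ, Sm (Ioo 0 (1 / 4)) L δ ∧
        (∀ τ ∈ Ioo (0 : ℝ) (1 / 4), ∀ x ∈ Icc 0 L, |φ τ x * dx L (dx L δ) τ x| ≤ 1 / 2) ∧
        (∀ τ ∈ Ioo (0 : ℝ) (1 / 4), ∀ x ∈ Icc 0 L,
          x ^ 9 * φ τ x * (φ τ x * dx L (dx L δ) τ x / (1 + φ τ x * dx L (dx L δ) τ x)) =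
            Kint (fun ξ => E τ ξ + dt δ τ ξ) x) ∧
        Tendsto (fun τ => √τ * dt δ τ 0) (𝓝[>] 0) (𝓝 0)) :
    ∃ (T ε a : ℝ) (w S : ℝ → ℝ → ℝ), Flow T ε w S ∧ 0 < a ∧
      Tendsto (fun t => S t 0 * √(T - t)) (𝓝[<] T) (𝓝 a) := by
  obtain ⟨c, A, g, gh, hsol⟩ := hsol
  obtain ⟨c0, C0, hProf, hb⟩ := hbg hsol
  obtain ⟨L1, P, hp⟩ := hpde hProf
  obtain ⟨L2, hb⟩ := hb P
  set L := max (max L1 L2) 8 with hLdef
  have hL8 : 8 ≤ L := le_max_right _ _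
  have hL : 0 < L := by linarith
  obtain ⟨φ, m, wa, Sa, E, hB, hwa, hSa, hE, hphi, hscal, hres, hS0, hE0, hEb⟩ :=
    hb L ((le_max_right _ _).trans (le_max_left _ _))
  obtain ⟨δ, hδ, hb2, heq, hlim⟩ :=
    hp L ((le_max_left _ _).trans (le_max_left _ _)) φ m hB E hE hE0 hEb
  have hsub : Ioo (0 : ℝ) (1 / 4) ⊆ Ioo 0 1 := Ioo_subset_Ioo_right (by norm_num)
  have hs : IsOpen (Ioo (0 : ℝ) (1 / 4)) := isOpen_Ioo
  -- the corrected functions
  have hwa' := hwa.mono hsub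
  have hSa' := hSa.mono hsub
  have hE' := hE.mono hsub
  have hδt : Sm (Ioo (0 : ℝ) (1 / 4)) L (dt δ) := hδ.dt hs hL
  have hδx : Sm (Ioo (0 : ℝ) (1 / 4)) L (dx L δ) := hδ.dx hs hL
  have hδxx : Sm (Ioo (0 : ℝ) (1 / 4)) L (dx L (dx L δ)) := hδx.dx hs hL
  set w : ℝ → ℝ → ℝ := fun τ x => wa τ x + dx L (dx L δ) τ x with hw
  set S : ℝ → ℝ → ℝ := fun τ x => Sa τ x + (E τ x + dt δ τ x) with hS
  have hwS : Sm (Ioo (0 : ℝ) (1 / 4)) L w := hwa'.add hδxx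
  have hSS : Sm (Ioo (0 : ℝ) (1 / 4)) L S := hSa'.add (hE'.add hδt)
  -- the flow equation in the variable τ
  have hflow : ∀ τ ∈ Ioo (0 : ℝ) (1 / 4), ∀ x ∈ Icc 0 L,
      dt w τ x = dx L (dx L S) τ x := by
    intro τ hτ x hx
    have h1 : dt w τ x = dt wa τ x + dt (dx L (dx L δ)) τ x := hwa'.dt_add hδxx hs hτ hx
    have h2 : dt (dx L (dx L δ)) τ x = dx L (dx L (dt δ)) τ x := by
      rw [hδx.dt_dx hs hL hτ hx]
      exact dx_congr (fun y hy => hδ.dt_dx hs hL hτ hy) hx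
    have h3 : dx L (dx L S) τ x
        = dx L (dx L Sa) τ x + (dx L (dx L E) τ x + dx L (dx L (dt δ)) τ x) := by
      have e1 : ∀ y ∈ Icc 0 L, dx L S τ y
          = (fun t z => dx L Sa t z + (dx L E t z + dx L (dt δ) t z)) τ y := by
        intro y hy
        have := hSa'.dx_add (hE'.add hδt) hL hτ hy
        have h' := hE'.dx_add hδt hL hτ hy
        simp only [hS]
        rw [this, h']
      rw [dx_congr (u := fun t z => dx L Sa t z + (dx L E t z + dx L (dt δ) t z)) e1 hx]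
      rw [(hSa'.dx hs hL).dx_add ((hE'.dx hs hL).add (hδt.dx hs hL)) hL hτ hx,
        (hE'.dx hs hL).dx_add (hδt.dx hs hL) hL hτ hx]
    have h4 := hres τ (hsub hτ) x hx
    rw [h1, h2, h3, h4]
    ring
  -- scalar curvature identity
  have hK : ∀ τ ∈ Ioo (0 : ℝ) (1 / 4), ∀ x ∈ Icc 0 L,
      x ^ 10 - x ^ 9 * (φ τ x / (1 + φ τ x * dx L (dx L δ) τ x)) = Kint (S τ) x := by
    intro τ hτ x hx
    have h1 := hscal τ (hsub hτ) x hx
    have h2 := heq τ hτ x hx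
    have h3 : Kint (S τ) x = Kint (Sa τ) x + Kint (fun ξ => E τ ξ + dt δ τ ξ) x :=
      kint_add (hSa'.continuousOn_right hτ) ((hE'.add hδt).continuousOn_right hτ) hx
    have hb' := abs_le.1 (hb2 τ hτ x hx)
    have hne : (1 + φ τ x * dx L (dx L δ) τ x) ≠ 0 := by
      have := hb'.1
      intro h0
      linarith
    rw [h3, ← h1, ← h2]
    field_simp
    ring
  -- positivity of φ in the interior
  have hφpos : ∀ τ ∈ Ioo (0 : ℝ) (1 / 4), ∀ x ∈ Ioo 0 L, 0 < φ τ x := by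
    intro τ hτ x hx
    rw [hB.phi_eq τ (hsub hτ) x (Ioo_subset_Icc_self hx)]
    have h1 : 0 < m τ x :=
      lt_of_lt_of_le hProf.c0_pos (hB.lower τ (hsub hτ) x (Ioo_subset_Icc_self hx))
    have h2 : 0 < 1 - x / L := by
      rw [sub_pos, div_lt_one hL]; exact hx.2
    have := hx.1
    positivity
  have hwφ : ∀ τ ∈ Ioo (0 : ℝ) (1 / 4), ∀ x ∈ Ioo 0 L,
      1 / x + 1 / (L - x) + w τ x = (1 + φ τ x * dx L (dx L δ) τ x) / φ τ x := by
    intro τ hτ x hx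
    have h1 := hphi τ (hsub hτ) x hx
    have h2 := (hφpos τ hτ x hx).ne'
    simp only [hw]
    rw [← add_assoc, ← h1]
    field_simp
  -- rescaling
  set T : ℝ := 1 / (8 * L ^ 2) with hT
  have hTpos : 0 < T := by positivity
  have hmaps : ∀ t ∈ Ioo (-T) T, L ^ 2 * T + -L ^ 2 * t ∈ Ioo (0 : ℝ) (1 / 4) := by
    intro t ht
    have hLT : L ^ 2 * T = 1 / 8 := by rw [hT]; field_simp
    have hL2 : 0 < L ^ 2 := by positivity
    constructor
    · have := mul_lt_mul_of_pos_left ht.2 hL2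
      linarith
    · have := mul_lt_mul_of_pos_left ht.1 hL2
      linarith
  have hIo : IsOpen (Ioo (-T) T) := isOpen_Ioo
  have hwL : Sm (Ioo (0 : ℝ) (1 / 4)) (L * 1) w := by rwa [mul_one]
  have hSL : Sm (Ioo (0 : ℝ) (1 / 4)) (L * 1) S := by rwa [mul_one]
  have hw1 : Sm (Ioo (-T) T) 1 (fun t x => w (L ^ 2 * T + -L ^ 2 * t) (L * x)) :=
    Sm.scale hL hwL hmaps
  have hS1 : Sm (Ioo (-T) T) 1 (fun t x => S (L ^ 2 * T + -L ^ 2 * t) (L * x)) :=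
    Sm.scale hL hSL hmaps
  have hxL : ∀ x ∈ Icc (0 : ℝ) 1, L * x ∈ Icc 0 L := fun x hx =>
    ⟨mul_nonneg hL.le hx.1, by nlinarith [hx.2]⟩
  have key : ∀ t ∈ Ioo (-T) T, ∀ x ∈ Ioo (0 : ℝ) 1,
      1 + x * (1 - x) * (L * w (L ^ 2 * T + -L ^ 2 * t) (L * x))
        = x * (1 - x) * (L * ((1 + φ (L ^ 2 * T + -L ^ 2 * t) (L * x) *
            dx L (dx L δ) (L ^ 2 * T + -L ^ 2 * t) (L * x)) /
              φ (L ^ 2 * T + -L ^ 2 * t) (L * x))) := by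
    intro t ht x hx
    have hx' : L * x ∈ Ioo 0 L := ⟨mul_pos hL hx.1, by nlinarith [hx.2]⟩
    have h := hwφ _ (hmaps t ht) (L * x) hx'
    have h1x : (1 - x) ≠ 0 := by linarith [hx.2]
    have hx0 : x ≠ 0 := hx.1.ne'
    have hLx : L - L * x ≠ 0 := by
      have : L - L * x = L * (1 - x) := by ring
      rw [this]; exact mul_ne_zero hL.ne' h1x
    rw [← h]
    have : L - L * x = L * (1 - x) := by ring
    rw [this]
    field_simp
    ring
  refine ⟨T, T, 110 * A, fun t x => L * w (L ^ 2 * T + -L ^ 2 * t) (L * x),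
    fun t x => L * S (L ^ 2 * T + -L ^ 2 * t) (L * x), ?_, ?_, ?_⟩
  · refine ⟨hTpos, hTpos, hw1.const_mul L, hS1.const_mul L, ?_, ?_, ?_⟩
    · -- positivity
      intro t ht x hx
      rcases eq_or_lt_of_le hx.1 with h0 | h0
      · simp [← h0]
      rcases eq_or_lt_of_le hx.2 with h1 | h1
      · simp [h1]
      rw [key t ht x ⟨h0, h1⟩]
      have hx' : L * x ∈ Ioo 0 L := ⟨mul_pos hL h0, by nlinarith⟩
      have hφ := hφpos _ (hmaps t ht) (L * x) hx'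
      have hb' := abs_le.1 (hb2 _ (hmaps t ht) (L * x) (Ioo_subset_Icc_self hx'))
      have h2 : 0 < 1 + φ (L ^ 2 * T + -L ^ 2 * t) (L * x) *
            dx L (dx L δ) (L ^ 2 * T + -L ^ 2 * t) (L * x) := by linarith [hb'.1]
      have h3 : 0 < 1 - x := by linarith
      positivity
    · -- scalar curvature
      intro t ht x hx
      rw [kint_scale hL, ← hK _ (hmaps t ht) (L * x) (hxL x hx)]
      rcases eq_or_lt_of_le hx.1 with h0 | h0
      · simp [← h0]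
      rcases eq_or_lt_of_le hx.2 with h1 | h1
      · have hφ0 : φ (L ^ 2 * T + -L ^ 2 * t) (L * x) = 0 := by
          rw [h1, mul_one, hB.phi_eq _ (hsub (hmaps t ht)) L ⟨hL.le, le_rfl⟩]
          rw [div_self hL.ne']
          ring
        rw [hφ0, h1]
        simp
        field_simp
      have hx' : L * x ∈ Ioo 0 L := ⟨mul_pos hL h0, by nlinarith⟩
      have hφ := (hφpos _ (hmaps t ht) (L * x) hx').ne'
      have hb' := abs_le.1 (hb2 _ (hmaps t ht) (L * x) (Ioo_subset_Icc_self hx'))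
      have h2 : 1 + φ (L ^ 2 * T + -L ^ 2 * t) (L * x) *
            dx L (dx L δ) (L ^ 2 * T + -L ^ 2 * t) (L * x) ≠ 0 := by
        intro h
        linarith [hb'.1]
      have h3 : 1 - x ≠ 0 := by
        intro h
        linarith
      rw [key t ht x ⟨h0, h1⟩]
      have h4 := h0.ne'
      have h5 := hL.ne'
      field_simp
    · -- flow
      intro t ht x hx
      have hm := hmaps t ht
      have hd1 : dt (fun t x => L * w (L ^ 2 * T + -L ^ 2 * t) (L * x)) t x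
          = L * (-L ^ 2 * dt w (L ^ 2 * T + -L ^ 2 * t) (L * x)) := by
        rw [hw1.dt_const_mul L hIo ht hx, Sm.dt_scale hL hs hwL hm hx]
      have hd2 : dx 1 (dx 1 (fun t x => L * S (L ^ 2 * T + -L ^ 2 * t) (L * x))) t x
          = L * (L * (L * dx L (dx L S) (L ^ 2 * T + -L ^ 2 * t) (L * x))) := by
        have e1 : ∀ y ∈ Icc (0 : ℝ) 1,
            dx 1 (fun t x => L * S (L ^ 2 * T + -L ^ 2 * t) (L * x)) t y
              = (fun t y => (L * L) * dx L S (L ^ 2 * T + -L ^ 2 * t) (L * y)) t y := by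
          intro y hy
          rw [hS1.dx_const_mul L one_pos ht hy, Sm.dx_scale hL one_pos hSL hm hy, mul_one]
          ring
        rw [dx_congr (u := fun t y => (L * L) * dx L S (L ^ 2 * T + -L ^ 2 * t) (L * y)) e1 hx]
        have hdS : Sm (Ioo (0 : ℝ) (1 / 4)) (L * 1) (dx L S) := by
          rw [mul_one]; exact hSS.dx hs hL
        have hdS1 : Sm (Ioo (-T) T) 1 (fun t x => dx L S (L ^ 2 * T + -L ^ 2 * t) (L * x)) :=
          Sm.scale hL hdS hmaps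
        rw [hdS1.dx_const_mul (L * L) one_pos ht hx, Sm.dx_scale hL one_pos hdS hm hx, mul_one]
        ring
      rw [hd1, hd2, hflow _ hm (L * x) (hxL x hx)]
      ring
  · have := hsol.A_pos
    positivity
  · -- the limit
    have hτ : Tendsto (fun t => L ^ 2 * T + -L ^ 2 * t) (𝓝[<] T) (𝓝[>] 0) := by
      apply tendsto_nhdsWithin_of_tendsto_nhds_of_eventually_within
      · have hc : Continuous (fun t : ℝ => L ^ 2 * T + -L ^ 2 * t) := by fun_prop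
        have := (hc.tendsto T).mono_left (nhdsWithin_le_nhds (s := Iio T))
        have h0 : L ^ 2 * T + -L ^ 2 * T = 0 := by ring
        rwa [h0] at this
      · filter_upwards [self_mem_nhdsWithin] with t ht
        have hL2 : 0 < L ^ 2 := by positivity
        have := mul_lt_mul_of_pos_left (show t < T from ht) hL2
        simp only [mem_Ioi]
        linarith
    have h1 := hlim.comp hτ
    have h2 : Tendsto (fun t => 110 * A + √(L ^ 2 * T + -L ^ 2 * t) *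
        dt δ (L ^ 2 * T + -L ^ 2 * t) 0) (𝓝[<] T) (𝓝 (110 * A + 0)) :=
      tendsto_const_nhds.add h1
    rw [add_zero] at h2
    refine h2.congr' ?_
    have hmem : Ioo (-T) T ∈ 𝓝[<] T := Ioo_mem_nhdsLT (by linarith)
    filter_upwards [hmem] with t ht
    have hm := hmaps t ht
    have hsq : √(L ^ 2 * T + -L ^ 2 * t) = L * √(T - t) := by
      have : L ^ 2 * T + -L ^ 2 * t = L ^ 2 * (T - t) := by ring
      rw [this, Real.sqrt_mul (by positivity), Real.sqrt_sq hL.le]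
    have hSv : S (L ^ 2 * T + -L ^ 2 * t) 0
        = 110 * A / √(L ^ 2 * T + -L ^ 2 * t) + dt δ (L ^ 2 * T + -L ^ 2 * t) 0 := by
      simp only [hS]
      rw [hS0 _ (hsub hm), hE0 _ (hsub hm) 0 ⟨le_rfl, zero_le_one⟩, zero_add]
    have hsp : 0 < √(T - t) := Real.sqrt_pos.2 (by linarith [ht.2])
    simp only [mul_zero]
    rw [hSv, hsq]
    field_simp

end Crest.Agent.R213.P
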